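import Mathlib
import Vale.Agent.P204.Defs
import Vale.Agent.P204.Algebra

/-!
# P204 on the torus, every almost complex structure: working definitions

These definitions serve the proof only; the final statement uses `Vale.Agent.P204.Defs`.
-/

open MeasureTheory Matrix
open scoped ContDiff

namespace Vale.Agent.P204.Torus

/-- The closed unit cube. -/
def cube : Set Pt := Set.Icc 0 1

/-- Lebesgue measure on the unit cube. -/
noncomputable def muC : Measure Pt := volume.restrict cube

/-- A smooth periodic two-form. -/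
structure IsTest (a : Pt → M4) : Prop where
  smooth : ∀ i k, ContDiff ℝ ∞ fun x => a x i k
  periodic : Periodic4 a
  skew : ∀ x, (a x)ᵀ = -a x

/-- The exterior derivative of a one-form. -/
noncomputable def dOne (b : Pt → Pt) : Pt → M4 :=
  fun x => Matrix.of fun i k => pd i (fun y => b y k) x - pd k (fun y => b y i) x

/-- The wedge product of two two-forms, against the volume form. -/
def wedge (A B : M4) : ℝ :=
  A 0 1 * B 2 3 - A 0 2 * B 1 3 + A 0 3 * B 1 2 + A 1 2 * B 0 3 - A 1 3 * B 0 2 + A 2 3 * B 0 1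

/-- The squared size of a matrix. -/
def sq2 (A : M4) : ℝ := ∑ i, ∑ k, A i k ^ 2

/-- The invariant part of a two-form. -/
noncomputable def inv11 (j A : M4) : M4 := (2 : ℝ)⁻¹ • (A + jᵀ * A * j)

/-- The anti-invariant part of a two-form. -/
noncomputable def antiP (j A : M4) : M4 := (2 : ℝ)⁻¹ • (A - jᵀ * A * j)

/-- The two-form dual to the complex line through `v`. -/
def lineForm (j : M4) (v : Pt) : M4 :=
  let P : Fin 4 → Fin 4 → ℝ := fun i k => v i * (j *ᵥ v) k - v k * (j *ᵥ v) i
  !![0, P 2 3, -P 1 3, P 1 2;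
    -P 2 3, 0, P 0 3, -P 0 2;
    P 1 3, -P 0 3, 0, P 0 1;
    -P 1 2, P 0 2, -P 0 1, 0]

/-- The Hermitian metric `(1 + jᵀ j) / 2`. -/
noncomputable def gH (j : M4) : M4 := (2 : ℝ)⁻¹ • (1 + jᵀ * j)

/-- Squared distance of `v` from the line of `l`, times the squared length of `l`. -/
noncomputable def offSq (j : M4) (l v : Pt) : ℝ :=
  ev (gH j) v v * ev (gH j) l l - ev (gH j) v l ^ 2 - ev (gH j) v (j *ᵥ l) ^ 2

/-- Periodic squared distance. -/
noncomputable def rho2 (w : Pt) : ℝ :=
  ∑ i, (1 - Real.cos (2 * Real.pi * w i)) / (2 * Real.pi ^ 2)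

/-- Periodic displacement. -/
noncomputable def sw (w : Pt) : Pt := fun i => Real.sin (2 * Real.pi * w i) / (2 * Real.pi)

/-- The regularised distance. -/
noncomputable def rs (s : ℝ) (x y : Pt) : ℝ := Real.sqrt (rho2 (x - y) + s ^ 2)

/-- The regularised squared distance in the metric at the midpoint. -/
noncomputable def qS (J : Pt → M4) (s : ℝ) (x y : Pt) : ℝ :=
  ev (gH (J (y + (2 : ℝ)⁻¹ • sw (x - y)))) (sw (x - y)) (sw (x - y)) + rho2 (x - y) ^ 2 + s ^ 2

/-- The test potential. -/
noncomputable def pot (J : Pt → M4) (s : ℝ) (x y : Pt) : ℝ := Real.log (qS J s x y) / 2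

/-- `dJd` of the potential in the second variable. -/
noncomputable def ddPot (J : Pt → M4) (s : ℝ) (x y : Pt) : M4 :=
  -dOne (fun z k => fderiv ℝ (pot J s x) z (J z *ᵥ Pi.single k 1)) y

/-- The one dimensional kernel on the line. -/
noncomputable def k0 (ε z : ℝ) : ℝ := (1 + |z| / ε) * Real.exp (-|z| / ε) / (4 * ε)

/-- Its periodisation. -/
noncomputable def k1 (ε z : ℝ) : ℝ := ∑' n : ℤ, k0 ε (z + n)

/-- The smoothing kernel on the torus. -/
noncomputable def kT (ε : ℝ) (w : Pt) : ℝ := ∏ i, k1 ε (w i)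

/-- Its square under convolution. -/
noncomputable def kTT (ε : ℝ) (w : Pt) : ℝ := ∫ z, kT ε z * kT ε (w - z) ∂muC

/-- Smoothing of a two-form. -/
noncomputable def smo (ε : ℝ) (a : Pt → M4) : Pt → M4 :=
  fun x => Matrix.of fun i k => ∫ y, kT ε (x - y) * a y i k ∂muC

/-- Sobolev sums of squares for smooth periodic functions. -/
noncomputable def sobF : ℕ → (Pt → ℝ) → ℝ
  | 0, f => ∫ x, f x ^ 2 ∂muC
  | n + 1, f => sobF n f + ∑ d, sobF n (pd d f)

/-- The same for two-forms. -/
noncomputable def sob (n : ℕ) (a : Pt → M4) : ℝ := ∑ i, ∑ k, sobF n fun x => a x i k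

/-- The positive current of a measure on unit tangent vectors. -/
noncomputable def tcur (J : Pt → M4) (m : Measure (Pt × Pt)) (a : Pt → M4) : ℝ :=
  ∫ p, ev (a p.1) p.2 (J p.1 *ᵥ p.2) ∂m

/-- The two-form density of the current after smoothing. -/
noncomputable def smoT (J : Pt → M4) (ε : ℝ) (m : Measure (Pt × Pt)) : Pt → M4 :=
  fun x => Matrix.of fun i k => ∫ p, kT ε (x - p.1) * lineForm (J p.1) p.2 i k ∂m

/-- An obstruction to compatible forms. -/
structure Obs (J : Pt → M4) (m : Measure (Pt × Pt)) : Prop where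
  finite : IsFiniteMeasure m
  nonzero : m ≠ 0
  supp : ∀ᵐ p ∂m, p.1 ∈ cube ∧ p.2 ⬝ᵥ p.2 = 1
  kills : ∀ a, IsClosedForm a → Invariant a J → tcur J m a = 0

/-- An extension `tcur + R` which kills every closed form. -/
structure IsExt (J : Pt → M4) (m : Measure (Pt × Pt)) (R : (Pt → M4) → ℝ) (C : ℝ) : Prop where
  add : ∀ a b, IsTest a → IsTest b → R (a + b) = R a + R b
  smul : ∀ (c : ℝ) a, IsTest a → R (c • a) = c * R a
  inv : ∀ a, IsTest a → Invariant a J → R a = 0
  bound : ∀ a, IsTest a → |R a| ≤ C * Real.sqrt (sob 3 fun x => antiP (J x) (a x))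
  kills : ∀ a, IsClosedForm a → tcur J m a + R a = 0

/-- Entrywise square integrable on the cube. -/
def L2M (V : Pt → M4) : Prop := ∀ i k, MemLp (fun x => V x i k) 2 muC

/-- The `L²` norm. -/
noncomputable def n2 (V : Pt → M4) : ℝ := Real.sqrt (∫ x, sq2 (V x) ∂muC)

end Vale.Agent.P204.Torus
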