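import Mathlib
import Vale.Agent.P204.Algebra

/-!
# P204 on the torus: the two-jet identity of the test function

`j`, `g` are the values at a point of the almost complex structure and of the Hermitian metric,
`jd`, `gd` their differentials. `P2` is the second order part of the numerator of `du ∧ dJdu` on
the three vectors `(v,0)`, `(0,l)`, `(0,jl)` at displacement `w`; it vanishes if both lines
contain `w`.
-/

open Matrix

namespace Vale.Agent.P204.Torus

/-- The first jet of an almost complex structure with a Hermitian metric. -/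
structure Jet where
  j : M4
  g : M4
  jd : Pt →ₗ[ℝ] M4
  gd : Pt →ₗ[ℝ] M4
  sq : j * j = -1
  symm : ∀ u v, ev g u v = ev g v u
  symmd : ∀ z u v, ev (gd z) u v = ev (gd z) v u
  herm : ∀ u v, ev g (j *ᵥ u) (j *ᵥ v) = ev g u v
  sqd : ∀ z u, jd z *ᵥ (j *ᵥ u) = -(j *ᵥ (jd z *ᵥ u))
  hermd : ∀ z u v, ev g (jd z *ᵥ u) (j *ᵥ v) + ev (gd z) (j *ᵥ u) (j *ᵥ v)
    + ev g (j *ᵥ u) (jd z *ᵥ v) = ev (gd z) u v

variable (K : Jet)

/-- Second derivative of the squared distance, order zero, on `(W, Z)` pairs. -/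
def d20 (a b : Pt × Pt) : ℝ := 2 * ev K.g a.1 b.1

/-- Second derivative of the squared distance, first order in `w`. -/
def d21 (w : Pt) (a b : Pt × Pt) : ℝ :=
  ev (K.gd w) a.1 b.1 + 2 * ev (K.gd a.2) w b.1 + 2 * ev (K.gd b.2) w a.1

/-- First derivative of the squared distance, first order. -/
def d11 (w : Pt) (a : Pt × Pt) : ℝ := 2 * ev K.g w a.1

/-- First derivative of the squared distance, second order. -/
def d12 (w : Pt) (a : Pt × Pt) : ℝ := ev (K.gd w) w a.1 + ev (K.gd a.2) w w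

/-- The three test vectors in displacement and midpoint coordinates. -/
noncomputable def vecA (v : Pt) : Pt × Pt := (v, (2 : ℝ)⁻¹ • v)
/-- A vector in the second factor. -/
noncomputable def vecB (l : Pt) : Pt × Pt := (-l, (2 : ℝ)⁻¹ • l)

/-- Second order part of the numerator. -/
noncomputable def P2 (w v l : Pt) : ℝ :=
  let a := vecA v
  let b := vecB l
  let c := vecB (K.j *ᵥ l)
  let a' := vecA (K.j *ᵥ v)
  let e := vecA (K.jd w *ᵥ v)
  d11 K w a * (-d21 K w b b - d21 K w c c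
      - 2 * ev K.g w (K.jd l *ᵥ (K.j *ᵥ l) - K.jd (K.j *ᵥ l) *ᵥ l))
    + d11 K w b * (d21 K w c a' + d20 K c e + d21 K w a b)
    + d11 K w c * (d21 K w a c - d21 K w b a' - d20 K b e)
    + d12 K w a * (-d20 K b b - d20 K c c)
    + d12 K w b * (d20 K c a' + d20 K a b)
    + d12 K w c * (d20 K a c - d20 K b a')

theorem jj (u : Pt) : K.j *ᵥ (K.j *ᵥ u) = -u := jj_mulVec K.sq u

theorem ev_add_left (S : M4) (u u' v : Pt) : ev S (u + u') v = ev S u v + ev S u' v :=
  add_dotProduct _ _ _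
theorem ev_add_right (S : M4) (u v v' : Pt) : ev S u (v + v') = ev S u v + ev S u v' := by
  simp [ev, mulVec_add, dotProduct_add]
theorem ev_smul_left (S : M4) (c : ℝ) (u v : Pt) : ev S (c • u) v = c * ev S u v := by
  simp [ev, smul_dotProduct]
theorem ev_smul_right (S : M4) (c : ℝ) (u v : Pt) : ev S u (c • v) = c * ev S u v := by
  simp [ev, mulVec_smul, dotProduct_smul]
theorem ev_neg_left (S : M4) (u v : Pt) : ev S (-u) v = -ev S u v := neg_dotProduct _ _
theorem ev_neg_right (S : M4) (u v : Pt) : ev S u (-v) = -ev S u v := by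
  simp [ev, mulVec_neg, dotProduct_neg]
theorem ev_add_mat (S S' : M4) (u v : Pt) : ev (S + S') u v = ev S u v + ev S' u v := by
  simp [ev, add_mulVec, dotProduct_add]
theorem ev_smul_mat (S : M4) (c : ℝ) (u v : Pt) : ev (c • S) u v = c * ev S u v := by
  simp [ev, smul_mulVec, dotProduct_smul]

theorem ev_neg_mat (S : M4) (u v : Pt) : ev (-S) u v = -ev S u v := by
  simp [ev, neg_mulVec, dotProduct_neg]

/-- If both lines contain `w`, the second order part vanishes. -/
theorem P2_eq_zero (w : Pt) (p q r s : ℝ) :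
    P2 K w (p • w + q • (K.j *ᵥ w)) (r • w + s • (K.j *ᵥ w)) = 0 := by
  have g1 : ev K.g w (K.j *ᵥ w) = 0 := by
    have h := K.herm w (K.j *ᵥ w)
    rw [jj, ev_neg_right, K.symm (K.j *ᵥ w) w] at h
    linarith
  have g2 : ev K.g (K.j *ᵥ w) w = 0 := by rw [K.symm]; exact g1
  have g3 := K.herm w w
  have hx : ∀ z, 2 * ev K.g (K.j *ᵥ w) (K.jd z *ᵥ w)
      = ev (K.gd z) w w - ev (K.gd z) (K.j *ᵥ w) (K.j *ᵥ w) := fun z => by
    have h := K.hermd z w w
    rw [K.symm (K.jd z *ᵥ w) (K.j *ᵥ w)] at h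
    linarith
  have hy : ∀ z, ev K.g w (K.jd z *ᵥ w) = -ev (K.gd z) w (K.j *ᵥ w) := fun z => by
    have h := K.hermd z w (K.j *ᵥ w)
    rw [jj, K.sqd, ev_neg_right, ev_neg_right, ev_neg_right, K.herm,
      K.symm (K.jd z *ᵥ w) w, K.symmd z (K.j *ᵥ w) w] at h
    linarith
  have hx' : ∀ z, ev K.g w (K.j *ᵥ (K.jd z *ᵥ w)) = -ev K.g (K.j *ᵥ w) (K.jd z *ᵥ w) := fun z => by
    have h := K.herm w (K.j *ᵥ (K.jd z *ᵥ w))
    rw [jj, ev_neg_right] at h
    linarith
  have hy' : ∀ z, ev K.g (K.j *ᵥ w) (K.j *ᵥ (K.jd z *ᵥ w)) = ev K.g w (K.jd z *ᵥ w) :=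
    fun z => K.herm w (K.jd z *ᵥ w)
  have hs : ∀ z, ev (K.gd z) (K.j *ᵥ w) w = ev (K.gd z) w (K.j *ᵥ w) := fun z => K.symmd z _ _
  have hX : ∀ z, ev K.g (K.j *ᵥ w) (K.jd z *ᵥ w)
      = (ev (K.gd z) w w - ev (K.gd z) (K.j *ᵥ w) (K.j *ᵥ w)) / 2 := fun z => by linarith [hx z]
  simp only [P2, d11, d12, d20, d21, vecA, vecB, sub_eq_add_neg, map_add, map_smul, map_neg,
    mulVec_add, mulVec_smul, mulVec_neg, add_mulVec, smul_mulVec, neg_mulVec, smul_add, smul_neg,
    smul_smul, neg_add_rev, neg_smul, jj, K.sqd, ev_add_left, ev_add_right, ev_smul_left,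
    ev_smul_right, ev_neg_left, ev_neg_right, ev_add_mat, ev_smul_mat, ev_neg_mat, g1, g2, g3, hs, hx', hy', hX, hy]
  ring

end Vale.Agent.P204.Torus
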