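import Vale.Agent.P204.Torus.Defs

/-!
# P204: periodic functions on four-space
-/

open Matrix
open scoped ContDiff

namespace Vale.Agent.P204.Torus

/-- Shift invariance under all integer translations. -/
theorem periodic4_int {α : Type} {f : Pt → α} (hf : Periodic4 f) (n : Fin 4 → ℤ) (x : Pt) :
    f (x + fun i => (n i : ℝ)) = f x := by
  have h1 : ∀ (i : Fin 4) (k : ℤ) (x : Pt), f (x + Pi.single i (k : ℝ)) = f x := by
    intro i k
    induction k with
    | zero => intro x; simp
    | succ k ih =>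
      intro x
      rw [show ((((k : ℤ) + 1 : ℤ)) : ℝ) = ((k : ℤ) : ℝ) + 1 by push_cast; ring, Pi.single_add,
        ← add_assoc, hf, ih]
    | pred k ih =>
      intro x
      have := hf i (x + Pi.single i (((-(k : ℤ) - 1 : ℤ)) : ℝ))
      rw [add_assoc, ← Pi.single_add] at this
      rw [← this, show ((-(k : ℤ) - 1 : ℤ) : ℝ) + 1 = ((-(k : ℤ) : ℤ) : ℝ) by push_cast; ring, ih]
  have h2 : (fun i => (n i : ℝ)) = Pi.single (0 : Fin 4) (n 0 : ℝ) + Pi.single 1 (n 1 : ℝ) +
      Pi.single 2 (n 2 : ℝ) + Pi.single 3 (n 3 : ℝ) := by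
    funext i; fin_cases i <;> simp
  rw [h2, ← add_assoc, ← add_assoc, ← add_assoc, h1, h1, h1, h1]

theorem isCompact_cube : IsCompact cube := isCompact_Icc

/-- A periodic function takes all its values on the cube. -/
theorem exists_cube_eq {α : Type} {f : Pt → α} (hf : Periodic4 f) (x : Pt) :
    ∃ y ∈ cube, f y = f x := by
  refine ⟨fun i => Int.fract (x i),
    ⟨fun i => Int.fract_nonneg _, fun i => (Int.fract_lt_one _).le⟩, ?_⟩
  have := periodic4_int hf (fun i => ⌊x i⌋) (fun i => Int.fract (x i))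
  rw [← this]; congr 1; funext i; exact Int.fract_add_floor _

theorem exists_bound_periodic4 {f : Pt → ℝ} (hf : Continuous f) (hp : Periodic4 f) :
    ∃ C : ℝ, 0 ≤ C ∧ ∀ x, |f x| ≤ C := by
  obtain ⟨C, hC⟩ := isCompact_cube.exists_bound_of_continuousOn hf.continuousOn
  refine ⟨max C 0, le_max_right _ _, fun x => ?_⟩
  obtain ⟨y, hy, he⟩ := exists_cube_eq hp x
  rw [← he]; exact (Real.norm_eq_abs (f y) ▸ hC y hy).trans (le_max_left _ _)

/-- A smooth periodic function is Lipschitz. -/
theorem exists_lipschitz_periodic4 {f : Pt → ℝ} (hf : ContDiff ℝ ∞ f) (hp : Periodic4 f) :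
    ∃ L : ℝ, 0 ≤ L ∧ ∀ x y, |f x - f y| ≤ L * ‖x - y‖ := by
  have hd : Differentiable ℝ f := hf.differentiable (by simp)
  have hc : Continuous (fderiv ℝ f) := hf.continuous_fderiv (by simp)
  have hfp : Periodic4 (fderiv ℝ f) := fun i x => by
    rw [← fderiv_comp_add_right (Pi.single i 1)]
    congr 1; funext y; exact hp i y
  obtain ⟨C, hC⟩ := isCompact_cube.exists_bound_of_continuousOn hc.continuousOn
  refine ⟨max C 0, le_max_right _ _, fun x y => ?_⟩
  have := Convex.norm_image_sub_le_of_norm_fderiv_le (C := max C 0) (f := f)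
    (fun z _ => hd z) (fun z _ => by
      obtain ⟨w, hw, he⟩ := exists_cube_eq hfp z
      rw [← he]; exact (hC w hw).trans (le_max_left _ _)) convex_univ (Set.mem_univ y) (Set.mem_univ x)
  simpa [Real.norm_eq_abs] using this

end Vale.Agent.P204.Torus
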