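import Mathlib
import Vale.Agent.P204.Torus.Defs

/-!
# P204 on the torus: the interfaces between the modules

None of these is assumed by the final theorem; each is proved in its own file.
-/

open MeasureTheory Matrix Filter
open scoped ContDiff Topology

namespace Vale.Agent.P204.Torus

/-- Module A: no compatible form gives an obstruction measure. -/
def DualStmt : Prop :=
  ∀ J, IsAlmostComplex J → (¬ ∃ s, IsClosedForm s ∧ Tames s J ∧ Invariant s J) →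
    ∃ m, Obs J m

/-- Module C: the obstruction extends to a functional killing all closed forms. -/
def ExtStmt : Prop :=
  ∀ J m, IsAlmostComplex J → Obs J m → ∃ R C, IsExt J m R C

/-- Module E: pointwise linear algebra with a global orientation sign. -/
def AlgStmt : Prop :=
  ∀ J, IsAlmostComplex J → ∃ σ c C : ℝ, (σ = 1 ∨ σ = -1) ∧ 0 < c ∧
    (∀ x A, Aᵀ = -A → (J x)ᵀ * A * J x = -A → c * sq2 A ≤ σ * wedge A A) ∧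
    (∀ x A, Aᵀ = -A → ∀ v, wedge A (lineForm (J x) v) = ev A v (J x *ᵥ v)) ∧
    (∀ x A B, Aᵀ = -A → Bᵀ = -B → wedge (inv11 (J x) A) (antiP (J x) B) = 0) ∧
    (∀ x v, inv11 (J x) (lineForm (J x) v) = lineForm (J x) v) ∧
    (∀ x y v, v ⬝ᵥ v = 1 →
      sq2 (antiP (J y) (lineForm (J x) v)) ≤ C * rho2 (x - y)) ∧
    (∀ x y v l, v ⬝ᵥ v = 1 → l ⬝ᵥ l = 1 →
      c * offSq (J y) l v - C * rho2 (x - y) ≤
        σ * wedge (lineForm (J x) v) (lineForm (J y) l))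

/-- Module D: the kernel. -/
def KernelStmt : Prop :=
  ∃ c C : ℝ, 0 < c ∧ ∀ ε : ℝ, 0 < ε → ε ≤ 1 →
    Continuous (kT ε) ∧ Continuous (kTT ε) ∧ Periodic4 (kT ε) ∧ Periodic4 (kTT ε) ∧
    (∀ w, kT ε (-w) = kT ε w) ∧
    (∀ x, ∫ y, kT ε (x - y) ∂muC = 1) ∧
    (∀ x y, ∫ z, kT ε (z - x) * kT ε (z - y) ∂muC = kTT ε (x - y)) ∧
    (∀ w, 0 ≤ kT ε w ∧ kT ε w ≤ C / ε ^ 4 / (1 + rho2 w / ε ^ 2) ^ 5) ∧
    (∀ w, 0 ≤ kTT ε w ∧ kTT ε w ≤ C / ε ^ 4 / (1 + rho2 w / ε ^ 2) ^ 5) ∧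
    (∀ w, rho2 w ≤ ε ^ 2 → c / ε ^ 4 ≤ kT ε w ∧ c / ε ^ 4 ≤ kTT ε w) ∧
    (∀ n : Fin 4 → ℤ, ∫ x, kT ε x * Real.cos (2 * Real.pi * ∑ i, (n i : ℝ) * x i) ∂muC
      = ∏ i, ((1 + (2 * Real.pi * ε * n i) ^ 2) ^ 2)⁻¹)

/-- Module B: the smoothed current. -/
def SmoothStmt : Prop :=
  ∀ J m R C, IsAlmostComplex J → Obs J m → IsExt J m R C →
    (∀ a, IsTest a → Tendsto (fun ε => R (smo ε a)) (𝓝[>] 0) (𝓝 (R a))) ∧
    ∃ C' ε₀ : ℝ, 0 < ε₀ ∧ ε₀ ≤ 1 ∧ ∀ ε : ℝ, 0 < ε → ε ≤ ε₀ →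
      (∀ a, IsTest a → IsTest (smo ε a)) ∧
      (∀ a, IsClosedForm a → IsClosedForm (smo ε a)) ∧
      ∃ V, L2M V ∧ (∀ x, (V x)ᵀ = -V x) ∧
        (∀ a, IsTest a → R (smo ε a) = ∫ x, wedge (V x) (a x) ∂muC) ∧
        n2 (fun x => inv11 (J x) (V x)) ≤ C' * ε * n2 V ∧
        (∫ p, ∫ q, kTT ε (p.1 - q.1) * wedge (lineForm (J p.1) p.2) (lineForm (J q.1) q.2) ∂m ∂m)
          + 2 * (∫ x, wedge (V x) (smoT J ε m x) ∂muC) + (∫ x, wedge (V x) (V x) ∂muC) = 0 ∧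
        (∀ m' : Measure (Pt × Pt), IsFiniteMeasure m' →
          (∀ᵐ p ∂m', p.1 ∈ cube ∧ p.2 ⬝ᵥ p.2 = 1) →
          (∀ b : Pt → Pt, (∀ k, ContDiff ℝ ∞ fun x => b x k) → Periodic4 b →
            tcur J m' (dOne b) = 0) →
          (∫ p, ∫ q, kTT ε (p.1 - q.1) * wedge (lineForm (J p.1) p.2) (lineForm (J q.1) q.2) ∂m ∂m')
            + (∫ x, wedge (V x) (smoT J ε m' x) ∂muC) = 0)

/-- Module F: the test potential. -/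
def TestStmt : Prop :=
  ∀ J, IsAlmostComplex J → ∃ c C : ℝ, 0 < c ∧ ∀ s : ℝ, 0 < s → s ≤ 1 →
    ContDiff ℝ ∞ (fun p : Pt × Pt => pot J s p.1 p.2) ∧
    (∀ i k, ContDiff ℝ ∞ fun p : Pt × Pt => ddPot J s p.1 p.2 i k) ∧
    (∀ x y i, pot J s (x + Pi.single i 1) y = pot J s x y ∧
      pot J s x (y + Pi.single i 1) = pot J s x y) ∧
    (∀ x, IsClosedForm (ddPot J s x)) ∧
    (∀ x y i k, rho2 (x - y) ≠ 0 →
      Tendsto (fun t => ddPot J t x y i k) (𝓝[>] 0) (𝓝 (ddPot J 0 x y i k))) ∧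
    ∀ x y,
      c * rs s x y ^ 2 ≤ qS J s x y ∧ qS J s x y ≤ C * rs s x y ^ 2 ∧
      ‖fderiv ℝ (fun z => pot J s z y) x‖ ≤ C / rs s x y ∧
      ‖fderiv ℝ (pot J s x) y‖ ≤ C / rs s x y ∧
      Real.sqrt (sq2 (ddPot J s x y)) ≤ C / rs s x y ^ 2 ∧
      Real.sqrt (sq2 (antiP (J y) (ddPot J s x y))) ≤ C / rs s x y ∧
      (∀ l, l ⬝ᵥ l = 1 →
        |ev (ddPot J s x y) l (J y *ᵥ l) - 2 * (offSq (J y) l (sw (x - y))
          + s ^ 2 * ev (gH (J y)) l l) / qS J s x y ^ 2| ≤ C / rs s x y) ∧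
      ∀ v, v ⬝ᵥ v = 1 → ∃ E : Pt → Pt, (∀ k, ContDiff ℝ ∞ fun z => E z k) ∧ Periodic4 E ∧
        ∀ z, let K : M4 := Matrix.of fun i k =>
              fderiv ℝ (fun u => pot J s u z * ddPot J s u z i k) x v - dOne E z i k
          Real.sqrt (sq2 K) ≤ C / rs s x z ^ 3 ∧
          ∀ l, l ⬝ᵥ l = 1 →
            |ev K l (J z *ᵥ l)| ≤ C * (Real.sqrt (offSq (J z) l (sw (x - z)))
                * Real.sqrt (offSq (J z) l v) / rs s x z ^ 4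
              + Real.sqrt (offSq (J z) l (sw (x - z))) / rs s x z ^ 3
              + Real.sqrt (offSq (J z) l v) / rs s x z ^ 2 + 1 / rs s x z)

/-- Module G: the a priori bounds. -/
def AprioriStmt : Prop :=
  ∀ J m R C, IsAlmostComplex J → Obs J m → IsExt J m R C → ∃ ρ C', L2M ρ ∧
    (∀ x, (ρ x)ᵀ = -ρ x) ∧ (∀ x, antiP (J x) (ρ x) = ρ x) ∧
    (∀ a, IsTest a → R a = ∫ x, wedge (ρ x) (a x) ∂muC) ∧
    (∀ x r, 0 < r → (m {p | rho2 (x - p.1) ≤ r ^ 2}).toReal ≤ C' * r ^ 2) ∧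
    (∀ x s, 0 < s → s ≤ 1 →
      ∫ p, offSq (J p.1) p.2 (sw (x - p.1)) / rs s x p.1 ^ 4 ∂m ≤ C') ∧
    (∀ s, 0 < s → s ≤ 1 / 2 →
      ∫ p, ∫ q, offSq (J q.1) q.2 p.2 / rs s p.1 q.1 ^ 4 ∂m ∂m ≤ C' * Real.log (1 / s))

/-- Module H: the weighted current is closed. -/
def ClosedStmt : Prop :=
  ∀ J m R C, IsAlmostComplex J → Obs J m → IsExt J m R C → ∃ (ν : Pt → ℝ) (C' : ℝ),
    Measurable ν ∧ (∀ x, 0 ≤ ν x ∧ ν x ≤ C') ∧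
    (∀ x η, 0 < η → ∀ᶠ r in 𝓝[>] (0 : ℝ),
      (m {p | rho2 (x - p.1) ≤ r ^ 2}).toReal ≤ (C' * ν x + η) * r ^ 2) ∧
    ∀ g : ℝ → ℝ, ContDiff ℝ ∞ g → g 0 = 0 →
      ∀ b : Pt → Pt, (∀ k, ContDiff ℝ ∞ fun x => b x k) → Periodic4 b →
        ∫ p, g (ν p.1) * ev (dOne b p.1) p.2 (J p.1 *ᵥ p.2) ∂m = 0

/-- The goal: tamed implies compatible on the four-torus. -/
def TorusStmt : Prop :=
  ∀ J, IsAlmostComplex J → (∃ om, IsClosedForm om ∧ Tames om J) →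
    ∃ s, IsClosedForm s ∧ Tames s J ∧ Invariant s J

end Vale.Agent.P204.Torus
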