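import Vale.Agent.P204.Torus.AlgBound
import Vale.Agent.P204.Torus.Periodic
import Vale.Agent.P204.Torus.Stmts

/-!
# P204 on the torus: module E
-/

open Matrix
open scoped ContDiff

namespace Vale.Agent.P204.Torus

theorem jT_jT {j : M4} (hj : j * j = -1) : jᵀ * jᵀ = -1 := by
  rw [← transpose_mul, hj, transpose_neg, transpose_one]

theorem conj_twice {j : M4} (hj : j * j = -1) (A : M4) : jᵀ * (jᵀ * A * j) * j = A := by
  rw [show jᵀ * (jᵀ * A * j) * j = (jᵀ * jᵀ) * A * (j * j) by simp only [Matrix.mul_assoc],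
    jT_jT hj, hj]
  simp

theorem ev2_conj {j A : M4} (hA : Aᵀ = -A) (v w : Pt) :
    ev2 (jᵀ * A * j) v w = ev2 A (j *ᵥ v) (j *ᵥ w) := by
  have hs : (jᵀ * A * j)ᵀ = -(jᵀ * A * j) := by
    rw [transpose_mul, transpose_mul, transpose_transpose, hA]; simp [Matrix.mul_assoc]
  rw [← dot_mulVec_eq_ev2 hs, ← dot_mulVec_eq_ev2 hA, ← mulVec_mulVec, ← mulVec_mulVec,
    dotProduct_mulVec v jᵀ, vecMul_transpose]

theorem skew_conj {j A : M4} (hA : Aᵀ = -A) : (jᵀ * A * j)ᵀ = -(jᵀ * A * j) := by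
  rw [transpose_mul, transpose_mul, transpose_transpose, hA]; simp [Matrix.mul_assoc]

theorem antiP_skew {j A : M4} (hA : Aᵀ = -A) : (antiP j A)ᵀ = -antiP j A := by
  rw [antiP, transpose_smul, transpose_sub, hA, skew_conj hA, ← smul_neg]; congr 1; abel

theorem inv11_skew {j A : M4} (hA : Aᵀ = -A) : (inv11 j A)ᵀ = -inv11 j A := by
  rw [inv11, transpose_smul, transpose_add, hA, skew_conj hA, ← smul_neg]; congr 1; abel

theorem isAnti_antiP {j A : M4} (hj : j * j = -1) (hA : Aᵀ = -A) : IsAnti j (antiP j A) := by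
  intro v w
  rw [← ev2_conj (antiP_skew hA)]
  have : jᵀ * antiP j A * j = -antiP j A := by
    simp only [antiP, Matrix.mul_smul, Matrix.smul_mul, Matrix.mul_sub, Matrix.sub_mul,
      conj_twice hj, ← smul_neg]
    congr 1; abel
  rw [this]; simp only [ev2, Matrix.neg_apply]; ring

theorem isInv_inv11 {j A : M4} (hj : j * j = -1) (hA : Aᵀ = -A) : IsInv j (inv11 j A) := by
  intro v w
  rw [← ev2_conj (inv11_skew hA)]
  have : jᵀ * inv11 j A * j = inv11 j A := by
    simp only [inv11, Matrix.mul_smul, Matrix.smul_mul, Matrix.mul_add, Matrix.add_mul,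
      conj_twice hj]
    congr 1; abel
  rw [this]

theorem isAnti_of_eq {j A : M4} (hA : Aᵀ = -A) (h : jᵀ * A * j = -A) : IsAnti j A := fun v w => by
  rw [← ev2_conj hA, h]; simp only [ev2, Matrix.neg_apply]; ring

theorem wedge_inv11_antiP {j A B : M4} (hj : j * j = -1) (hA : Aᵀ = -A) (hB : Bᵀ = -B) :
    wedge (inv11 j A) (antiP j B) = 0 := by
  obtain ⟨k, hk⟩ := exists_frame hj
  exact wedge_inv_anti hj (isInv_inv11 hj hA) (isAnti_antiP hj hB) hk

theorem antiP_lineForm {j : M4} (hj : j * j = -1) (v : Pt) : antiP j (lineForm j v) = 0 := by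
  obtain ⟨B, hB⟩ : ∃ B, ∀ i k, |j i k| ≤ B :=
    ⟨∑ i, ∑ k, |j i k|, fun i k => (Finset.single_le_sum (f := fun k => |j i k|)
      (fun _ _ => abs_nonneg _) (Finset.mem_univ k)).trans (Finset.single_le_sum
      (f := fun i => ∑ k, |j i k|) (fun _ _ => Finset.sum_nonneg fun _ _ => abs_nonneg _)
      (Finset.mem_univ i))⟩
  obtain ⟨c, hc, hlow⟩ := exists_anti_lower B
  set L := lineForm j v with hL
  have hsk : Lᵀ = -L := dualBiv_skew _ _
  have hA := isAnti_antiP hj hsk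
  have h := hlow j hj hB _ (antiP_skew hsk) hA
  have hw : wedge (antiP j L) (antiP j L) = 0 := by
    have h1 : wedge L (antiP j L) = 0 := by
      rw [hL, lineForm_eq, wedge_dualBiv_left]
      exact (anti_frame hj hA v v).1
    have h2 := wedge_inv11_antiP hj hsk hsk
    have h3 : L = inv11 j L + antiP j L := by
      simp only [inv11, antiP, ← smul_add]
      ext a b; simp; ring
    have h4 : wedge L (antiP j L) = wedge (inv11 j L) (antiP j L) +
        wedge (antiP j L) (antiP j L) := by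
      conv_lhs => arg 1; rw [h3]
      exact wedge_add_left _ _ _
    linarith
  rw [hw, mul_zero] at h
  have h0 : sq2 (antiP j L) ≤ 0 := by
    by_contra hn
    have := mul_pos hc (not_le.1 hn); linarith
  ext i k
  have h1 : antiP j L i k ^ 2 ≤ sq2 (antiP j L) :=
    (Finset.single_le_sum (f := fun k => antiP j L i k ^ 2) (fun _ _ => sq_nonneg _)
      (Finset.mem_univ k)).trans (Finset.single_le_sum
      (f := fun i => ∑ k, antiP j L i k ^ 2) (fun _ _ => Finset.sum_nonneg fun _ _ => sq_nonneg _)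
      (Finset.mem_univ i))
  simpa using le_antisymm (h1.trans h0) (sq_nonneg _)

theorem inv11_lineForm {j : M4} (hj : j * j = -1) (v : Pt) :
    inv11 j (lineForm j v) = lineForm j v := by
  have h := antiP_lineForm hj v
  ext i k
  have := congr_fun (congr_fun h i) k
  simp [antiP, inv11] at this ⊢
  linarith

theorem exists_nearest (x y : Pt) : ∃ n : Fin 4 → ℤ,
    ‖x - (y + fun i => (n i : ℝ))‖ ^ 2 ≤ Real.pi ^ 2 / 4 * rho2 (x - y) := by
  refine ⟨fun i => round (x i - y i), ?_⟩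
  set w : Pt := x - (y + fun i => ((round (x i - y i) : ℤ) : ℝ)) with hw
  have hterm : ∀ i, w i ^ 2 ≤
      Real.pi ^ 2 / 4 * ((1 - Real.cos (2 * Real.pi * (x - y) i)) / (2 * Real.pi ^ 2)) := by
    intro i
    have h1 : |w i| ≤ 1 / 2 := by
      have := abs_sub_round (x i - y i)
      simp only [hw, Pi.sub_apply, Pi.add_apply]; rw [show x i - (y i + ((round (x i - y i) : ℤ) : ℝ)) = x i - y i - round (x i - y i) by ring]; exact this
    have h2 : |2 * Real.pi * w i| ≤ Real.pi := by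
      rw [abs_mul, abs_of_pos (by positivity : 0 < 2 * Real.pi)]
      nlinarith [Real.pi_pos]
    have h3 := Real.cos_le_one_sub_mul_cos_sq h2
    have h4 : Real.cos (2 * Real.pi * w i) = Real.cos (2 * Real.pi * (x - y) i) := by
      rw [← Real.cos_sub_int_mul_two_pi (2 * Real.pi * (x - y) i) (round (x i - y i))]
      congr 1
      simp only [hw, Pi.sub_apply, Pi.add_apply]; ring
    rw [h4] at h3
    have h5 : 2 / Real.pi ^ 2 * (2 * Real.pi * w i) ^ 2 = 8 * w i ^ 2 := by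
      field_simp; ring
    rw [h5] at h3
    have h6 : Real.pi ^ 2 / 4 * ((1 - Real.cos (2 * Real.pi * (x - y) i)) / (2 * Real.pi ^ 2)) =
        (1 - Real.cos (2 * Real.pi * (x - y) i)) / 8 := by field_simp; ring
    rw [h6]; linarith
  have hn : ‖w‖ ^ 2 ≤ ∑ i, w i ^ 2 := by
    have h0 : (0 : ℝ) ≤ ∑ i, w i ^ 2 := Finset.sum_nonneg fun _ _ => sq_nonneg _
    have h1 : ‖w‖ ≤ Real.sqrt (∑ i, w i ^ 2) :=
      (pi_norm_le_iff_of_nonneg (Real.sqrt_nonneg _)).2 fun i => by
        rw [Real.norm_eq_abs, ← Real.sqrt_sq_eq_abs]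
        exact Real.sqrt_le_sqrt (Finset.single_le_sum (f := fun i => w i ^ 2)
          (fun _ _ => sq_nonneg _) (Finset.mem_univ i))
    exact (pow_le_pow_left₀ (norm_nonneg _) h1 2).trans (le_of_eq (Real.sq_sqrt h0))
  calc ‖w‖ ^ 2 ≤ ∑ i, w i ^ 2 := hn
    _ ≤ _ := Finset.sum_le_sum fun i _ => hterm i
    _ = _ := by rw [rho2, Finset.mul_sum]

theorem norm_sq_le_one {v : Pt} (hv : v ⬝ᵥ v = 1) : ‖v‖ ≤ 1 := by
  refine (pi_norm_le_iff_of_nonneg zero_le_one).2 fun i => ?_
  have : v i * v i ≤ 1 := hv ▸ Finset.single_le_sum (f := fun k => v k * v k)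
    (fun k _ => mul_self_nonneg _) (Finset.mem_univ i)
  rw [Real.norm_eq_abs]; exact abs_le_one_iff_mul_self_le_one.2 this

theorem algStmt : AlgStmt := by
  intro J hJ
  have hp : ∀ i k, Periodic4 (fun x => J x i k) := fun i k a x =>
    congrFun (congrFun (hJ.periodic a x) i) k
  choose B0 hB0 hB using fun i k => exists_bound_periodic4 (hJ.smooth i k).continuous (hp i k)
  choose L0 hL0 hL using fun i k => exists_lipschitz_periodic4 (hJ.smooth i k) (hp i k)
  have hsum : ∀ (F : Fin 4 → Fin 4 → ℝ), (∀ i k, 0 ≤ F i k) → ∀ i k, F i k ≤ ∑ a, ∑ b, F a b :=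
    fun F hF i k => (Finset.single_le_sum (fun b _ => hF i b) (Finset.mem_univ k)).trans
      (Finset.single_le_sum (f := fun a => ∑ b, F a b)
        (fun a _ => Finset.sum_nonneg fun b _ => hF a b) (Finset.mem_univ i))
  set B := ∑ a, ∑ b, B0 a b
  set L := ∑ a, ∑ b, L0 a b
  have hJB : ∀ x i k, |J x i k| ≤ B := fun x i k => (hB i k x).trans (hsum B0 hB0 i k)
  have hJL : ∀ x y i k, |J x i k - J y i k| ≤ L * ‖x - y‖ := fun x y i k =>
    (hL i k x y).trans (mul_le_mul_of_nonneg_right (hsum L0 hL0 i k) (norm_nonneg _))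
  have hsgn : ∀ x, oSgn (J x) = oSgn (J 0) := by
    have hc : Continuous fun x => psi (J x) := by
      have hcJ : Continuous fun x => J x :=
        continuous_pi fun i => continuous_pi fun k => (hJ.smooth i k).continuous
      unfold psi
      simp only [det4_expand, Matrix.mulVec, dotProduct]
      fun_prop
    have hs : ∀ a b, 0 < psi (J a) → 0 < psi (J b) := fun a b ha => by
      by_contra hb
      obtain ⟨c, hc0⟩ := intermediate_value_univ b a hc ⟨not_lt.1 hb, ha.le⟩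
      exact psi_ne_zero (hJ.sq c) hc0
    intro x
    by_cases h : 0 < psi (J 0)
    · simp [oSgn, h, hs 0 x h]
    · have : ¬ 0 < psi (J x) := fun hx => h (hs x 0 hx)
      simp [oSgn, h, this]
  obtain ⟨c1, hc1, ha⟩ := exists_anti_lower B
  obtain ⟨c2, C2, hc2, hC2, hl⟩ := exists_lines_lower B
  obtain ⟨C3, hC3, hb⟩ := exists_antiP_line_bound B
  set P := Real.pi ^ 2 / 4 * L ^ 2 with hP
  have hr : ∀ x y, 0 ≤ rho2 (x - y) := fun x y => Finset.sum_nonneg fun i _ => by
    have := Real.cos_le_one (2 * Real.pi * (x - y) i); positivity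
  refine ⟨oSgn (J 0), min c1 c2, (C2 + C3) * P, oSgn_cases _, lt_min hc1 hc2,
    fun x A hA h => ?_, fun x A hA v => ?_, fun x A B hA hB => wedge_inv11_antiP (hJ.sq x) hA hB,
    fun x v => inv11_lineForm (hJ.sq x) v, fun x y v hv => ?_, fun x y v l hv hl1 => ?_⟩
  · rw [← hsgn x]
    refine le_trans ?_ (ha _ (hJ.sq x) (hJB x) A hA (isAnti_of_eq hA h))
    exact mul_le_mul_of_nonneg_right (min_le_left _ _)
      (Finset.sum_nonneg fun i _ => Finset.sum_nonneg fun k _ => sq_nonneg _)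
  · rw [wedge_comm, lineForm_eq, wedge_dualBiv_left, ev, dot_mulVec_eq_ev2 hA]
  · obtain ⟨n, hn⟩ := exists_nearest x y
    rw [← periodic4_int hJ.periodic n y]
    set y' := y + fun i => (n i : ℝ)
    refine (hb (J x) (J y') (hJ.sq _) (hJB _) _ (fun i k => hJL x y' i k) v
      (antiP_lineForm (hJ.sq _) v)).trans ?_
    have h4 : ‖v‖ ^ 4 ≤ 1 := pow_le_one₀ (norm_nonneg _) (norm_sq_le_one hv)
    calc C3 * (L * ‖x - y'‖) ^ 2 * ‖v‖ ^ 4 ≤ C3 * (L * ‖x - y'‖) ^ 2 * 1 :=
          mul_le_mul_of_nonneg_left h4 (by positivity)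
      _ = C3 * L ^ 2 * ‖x - y'‖ ^ 2 := by ring
      _ ≤ C3 * L ^ 2 * (Real.pi ^ 2 / 4 * rho2 (x - y)) :=
          mul_le_mul_of_nonneg_left hn (by positivity)
      _ ≤ _ := by
          have h0 : 0 ≤ C2 * P * rho2 (x - y) := by have := hr x y; positivity
          rw [hP] at h0 ⊢; linarith
  · obtain ⟨n, hn⟩ := exists_nearest x y
    rw [← hsgn y, ← periodic4_int hJ.periodic n y]
    set y' := y + fun i => (n i : ℝ)
    refine le_trans ?_ (hl (J x) (J y') (hJ.sq _) (hJB _) _ (fun i k => hJL x y' i k) v l)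
    have h2 : ‖l‖ ^ 2 * ‖v‖ ^ 2 ≤ 1 := mul_le_one₀
      (pow_le_one₀ (norm_nonneg _) (norm_sq_le_one hl1)) (sq_nonneg _)
      (pow_le_one₀ (norm_nonneg _) (norm_sq_le_one hv))
    have h5 : C2 * (L * ‖x - y'‖) ^ 2 * ‖l‖ ^ 2 * ‖v‖ ^ 2 ≤ (C2 + C3) * P * rho2 (x - y) :=
      calc C2 * (L * ‖x - y'‖) ^ 2 * ‖l‖ ^ 2 * ‖v‖ ^ 2
          = C2 * (L * ‖x - y'‖) ^ 2 * (‖l‖ ^ 2 * ‖v‖ ^ 2) := by ring
        _ ≤ C2 * (L * ‖x - y'‖) ^ 2 * 1 := mul_le_mul_of_nonneg_left h2 (by positivity)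
        _ = C2 * L ^ 2 * ‖x - y'‖ ^ 2 := by ring
        _ ≤ C2 * L ^ 2 * (Real.pi ^ 2 / 4 * rho2 (x - y)) :=
            mul_le_mul_of_nonneg_left hn (by positivity)
        _ ≤ _ := by
            have h0 : 0 ≤ C3 * P * rho2 (x - y) := by have := hr x y; positivity
            rw [hP] at h0 ⊢; linarith
    have h6 : min c1 c2 * offSq (J y') l v ≤ c2 * offSq (J y') l v :=
      mul_le_mul_of_nonneg_right (min_le_right _ _) (offSq_nonneg (hJ.sq _) l v)
    linarith

end Vale.Agent.P204.Torus
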