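import Mathlib
import Vale.Agent.P204.Torus.Defs
import Vale.Agent.P204.Torus.Stmts

/-!
# P204, module A: duality

If no closed invariant taming form exists, a positive measure on unit tangent vectors annihilates
every closed invariant form.
-/

open MeasureTheory Matrix
open scoped ContDiff CompactlySupported

namespace Vale.Agent.P204

/-- A convex set of continuous functions on a compact space, stable under scaling and without a
positive element, is annihilated by a nonzero finite measure. -/
theorem exists_annihilating_measure {Y : Type*} [TopologicalSpace Y] [CompactSpace Y] [T2Space Y]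
    [MeasurableSpace Y] [BorelSpace Y] [Nonempty Y] (W : Set C(Y, ℝ)) (hW : Convex ℝ W)
    (hzero : (0 : C(Y, ℝ)) ∈ W) (hsmul : ∀ c : ℝ, ∀ w ∈ W, c • w ∈ W)
    (hpos : ∀ w ∈ W, ∃ y, w y ≤ 0) :
    ∃ μ : Measure Y, IsFiniteMeasure μ ∧ μ ≠ 0 ∧ ∀ w ∈ W, ∫ y, w y ∂μ = 0 := by
  set P : Set C(Y, ℝ) := {f | ∀ y, 0 < f y} with hPdef
  have hPconv : Convex ℝ P := by
    intro f hf g hg a b ha hb hab y
    have h1 := hf y
    have h2 := hg y
    simp only [ContinuousMap.add_apply, ContinuousMap.smul_apply, smul_eq_mul]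
    rcases ha.lt_or_eq with h | h
    · positivity
    · subst h
      obtain rfl : b = 1 := by linarith
      simpa using h2
  have hPopen : IsOpen P := by
    rw [Metric.isOpen_iff]
    intro f hf
    obtain ⟨y₀, -, hy₀⟩ := isCompact_univ.exists_isMinOn Set.univ_nonempty f.continuous.continuousOn
    refine ⟨f y₀, hf y₀, fun g hg y => ?_⟩
    rw [Metric.mem_ball, dist_eq_norm] at hg
    have h1 := (g - f).norm_coe_le_norm y
    simp only [ContinuousMap.sub_apply, Real.norm_eq_abs] at h1
    have h2 : f y₀ ≤ f y := hy₀ (Set.mem_univ y)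
    have h3 := (abs_le.1 (h1.trans hg.le)).1
    have h4 : |g y - f y| < f y₀ := lt_of_le_of_lt h1 hg
    linarith [(abs_lt.1 h4).1]
  have hdisj : Disjoint P W := by
    rw [Set.disjoint_left]
    intro w hwP hwW
    obtain ⟨y, hy⟩ := hpos w hwW
    exact absurd (hwP y) (not_lt.2 hy)
  obtain ⟨φ, u, hP, hW'⟩ := geometric_hahn_banach_open hPconv hPopen hW hdisj
  have hu0 : u ≤ 0 := by simpa using hW' 0 hzero
  have hkill : ∀ w ∈ W, φ w = 0 := by
    intro w hw
    by_contra hne
    have := hW' _ (hsmul ((u - 1) / φ w) w hw)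
    rw [map_smul, smul_eq_mul, div_mul_cancel₀ _ hne] at this
    linarith
  have hneg : ∀ f ∈ P, φ f < 0 := fun f hf => lt_of_lt_of_le (hP f hf) hu0
  have hnonneg : ∀ f : C(Y, ℝ), (∀ y, 0 ≤ f y) → φ f ≤ 0 := by
    intro f hf
    have h1 : φ 1 < 0 := hneg 1 fun _ => one_pos
    by_contra h
    push Not at h
    have hc : 0 < φ f / (2 * -φ 1) := div_pos h (by linarith)
    have hm : f + (φ f / (2 * -φ 1)) • (1 : C(Y, ℝ)) ∈ P := fun y => by
      simp only [ContinuousMap.add_apply, ContinuousMap.smul_apply, ContinuousMap.one_apply,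
        smul_eq_mul, mul_one]
      linarith [hf y]
    have := hneg _ hm
    rw [map_add, map_smul, smul_eq_mul] at this
    have he : φ f / (2 * -φ 1) * φ 1 = -(φ f / 2) := by field_simp [h1.ne]
    linarith
  let Λ : C_c(Y, ℝ) →ₚ[ℝ] ℝ := PositiveLinearMap.mk₀
    { toFun := fun f => -φ f.toContinuousMap
      map_add' := fun f g => by
        show -φ (f.toContinuousMap + g.toContinuousMap) = _
        rw [map_add]; ring
      map_smul' := fun c f => by
        show -φ (c • f.toContinuousMap) = _
        rw [map_smul]; simp }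
    (fun f hf => by
      simp only [LinearMap.coe_mk, AddHom.coe_mk, neg_nonneg]
      exact hnonneg _ fun y => hf y)
  refine ⟨RealRMK.rieszMeasure Λ, inferInstance, ?_, ?_⟩
  · intro h0
    have h := RealRMK.integral_rieszMeasure Λ (CompactlySupportedContinuousMap.continuousMapEquiv 1)
    rw [h0, integral_zero_measure] at h
    have h' : (0 : ℝ) = -φ 1 := h
    linarith [hneg 1 fun _ => one_pos]
  · intro w hw
    have h := RealRMK.integral_rieszMeasure Λ (CompactlySupportedContinuousMap.continuousMapEquiv w)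
    have h' : ∫ y, w y ∂(RealRMK.rieszMeasure Λ) = -φ w := h
    rw [h', hkill w hw, neg_zero]

namespace Torus

/-- Unit tangent vectors over the cube. -/
def unitTangent : Set (Pt × Pt) := {p | p.1 ∈ cube ∧ p.2 ⬝ᵥ p.2 = 1}

theorem isCompact_unitTangent : IsCompact unitTangent := by
  have hc : IsCompact (cube ×ˢ Metric.closedBall (0 : Pt) 1) :=
    isCompact_Icc.prod (isCompact_closedBall _ _)
  refine hc.of_isClosed_subset ?_ ?_
  · exact (isClosed_Icc.preimage continuous_fst).inter
      (isClosed_eq (by unfold dotProduct; fun_prop) continuous_const)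
  · rintro ⟨x, v⟩ ⟨hx, hv⟩
    refine ⟨hx, ?_⟩
    rw [mem_closedBall_zero_iff]
    refine (pi_norm_le_iff_of_nonneg zero_le_one).2 fun i => ?_
    have : v i * v i ≤ v ⬝ᵥ v :=
      Finset.single_le_sum (f := fun k => v k * v k) (fun k _ => mul_self_nonneg _) (Finset.mem_univ i)
    rw [hv] at this
    rw [Real.norm_eq_abs, abs_le]
    constructor <;> nlinarith [mul_self_nonneg (v i)]

/-- The integer translate of a point into the cube. -/
theorem periodic_fract {α : Type} {f : Pt → α} (hf : Periodic4 f) (x : Pt) :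
    f (fun i => Int.fract (x i)) = f x := by
  have hn : ∀ (i : Fin 4) (k : ℤ) (y : Pt), f (y + (k : ℝ) • Pi.single i 1) = f y := by
    intro i k y
    have hp : Function.Periodic (fun t : ℝ => f (y + t • Pi.single i (1 : ℝ))) 1 := fun t => by
      show f (y + (t + 1) • Pi.single i (1 : ℝ)) = f (y + t • Pi.single i (1 : ℝ))
      rw [add_smul, one_smul, ← add_assoc, hf i]
    simpa using hp.int_mul k 0
  have : ∀ s : Finset (Fin 4),
      f (x + ∑ i ∈ s, ((-⌊x i⌋ : ℤ) : ℝ) • Pi.single i (1 : ℝ)) = f x := by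
    intro s
    induction s using Finset.induction with
    | empty => simp
    | insert a s ha ih => rw [Finset.sum_insert ha, add_comm (((-⌊x a⌋ : ℤ) : ℝ) • _),
        ← add_assoc, hn a, ih]
  have he : x + ∑ i, ((-⌊x i⌋ : ℤ) : ℝ) • Pi.single i (1 : ℝ) = fun i => Int.fract (x i) := by
    funext k
    simp [Finset.sum_apply, Pi.single_apply, Int.fract, sub_eq_add_neg]
  rw [← he]
  exact this _

theorem dualStmt : DualStmt := by
  intro J hJ hno
  have : CompactSpace unitTangent := isCompact_iff_compactSpace.1 isCompact_unitTangent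
  have : Nonempty unitTangent := ⟨⟨(0, Pi.single 0 1), ⟨⟨le_rfl, zero_le_one⟩, by simp⟩⟩⟩
  have hcJ : ∀ i k, Continuous fun x => J x i k := fun i k => (hJ.smooth i k).continuous
  have hcont : ∀ a, IsClosedForm a → Continuous fun p : Pt × Pt => ev (a p.1) p.2 (J p.1 *ᵥ p.2) := by
    intro a ha
    have hca : ∀ i k, Continuous fun x => a x i k := fun i k => (ha.smooth i k).continuous
    simp only [ev, dotProduct, mulVec]
    fun_prop
  set S : Set (Pt → M4) := {a | IsClosedForm a ∧ Invariant a J} with hS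
  have hsmulS : ∀ (c : ℝ) a, a ∈ S → (fun x => c • a x) ∈ S := by
    intro c a ⟨ha, hi⟩
    refine ⟨⟨fun i k => ?_, fun i x => ?_, fun x => ?_, fun i j k x => ?_⟩, fun x => ?_⟩
    · simpa using (ha.smooth i k).const_smul c
    · show c • a _ = c • a x
      rw [ha.periodic i x]
    · rw [transpose_smul, ha.skew, smul_neg]
    · have hd : ∀ p q, Differentiable ℝ fun y => a y p q := fun p q =>
        (ha.smooth p q).differentiable (by norm_num)
      simp only [pd, Matrix.smul_apply, smul_eq_mul]
      rw [fderiv_const_mul (hd j k x), fderiv_const_mul (hd k i x), fderiv_const_mul (hd i j x)]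
      simp only [_root_.smul_apply, smul_eq_mul]
      have := ha.closed i j k x
      simp only [pd] at this
      linear_combination c * this
    · simp [hi x]
  have haddS : ∀ a b, a ∈ S → b ∈ S → (fun x => a x + b x) ∈ S := by
    intro a b ⟨ha, hia⟩ ⟨hb, hib⟩
    refine ⟨⟨fun i k => ?_, fun i x => ?_, fun x => ?_, fun i j k x => ?_⟩, fun x => ?_⟩
    · simpa using (ha.smooth i k).add (hb.smooth i k)
    · show a _ + b _ = a x + b x
      rw [ha.periodic i x, hb.periodic i x]
    · rw [transpose_add, ha.skew, hb.skew, neg_add]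
    · have hda : ∀ p q, Differentiable ℝ fun y => a y p q := fun p q =>
        (ha.smooth p q).differentiable (by norm_num)
      have hdb : ∀ p q, Differentiable ℝ fun y => b y p q := fun p q =>
        (hb.smooth p q).differentiable (by norm_num)
      simp only [pd, Matrix.add_apply]
      rw [fderiv_fun_add (hda j k x) (hdb j k x), fderiv_fun_add (hda k i x) (hdb k i x),
        fderiv_fun_add (hda i j x) (hdb i j x)]
      simp only [_root_.add_apply]
      have h1 := ha.closed i j k x
      have h2 := hb.closed i j k x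
      simp only [pd] at h1 h2
      linarith
    · simp [Matrix.mul_add, Matrix.add_mul, hia x, hib x]
  let W : Set C(unitTangent, ℝ) :=
    {w | ∃ a ∈ S, ∀ p : unitTangent, w p = ev (a p.1.1) p.1.2 (J p.1.1 *ᵥ p.1.2)}
  have hsm : ∀ c : ℝ, ∀ w ∈ W, c • w ∈ W := by
    rintro c w ⟨a, ha, hw⟩
    refine ⟨_, hsmulS c a ha, fun p => ?_⟩
    simp [hw p, ev, smul_mulVec, dotProduct_smul]
  have hnp : ∀ w ∈ W, ∃ y, w y ≤ 0 := by
    rintro w ⟨a, ⟨ha, hi⟩, hw⟩
    by_contra h
    push Not at h
    refine hno ⟨a, ha, fun x v hv => ?_, hi⟩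
    set x' : Pt := fun i => Int.fract (x i)
    have hvv : 0 < v ⬝ᵥ v := by
      rcases (Finset.sum_nonneg fun i _ => mul_self_nonneg (v i) : 0 ≤ v ⬝ᵥ v).lt_or_eq with h' | h'
      · exact h'
      · exact absurd (dotProduct_self_eq_zero.1 h'.symm) hv
    set c := (Real.sqrt (v ⬝ᵥ v))⁻¹ with hc
    have hc0 : 0 < c := by positivity
    have hu : (c • v) ⬝ᵥ (c • v) = 1 := by
      rw [smul_dotProduct, dotProduct_smul, smul_eq_mul, smul_eq_mul, ← mul_assoc, hc,
        ← mul_inv, Real.mul_self_sqrt hvv.le, inv_mul_cancel₀ hvv.ne']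
    have hx' : x' ∈ cube := ⟨fun i => Int.fract_nonneg _, fun i => (Int.fract_lt_one _).le⟩
    have h1 := h ⟨(x', c • v), hx', hu⟩
    rw [hw] at h1
    simp only [ev, x', periodic_fract ha.periodic, periodic_fract hJ.periodic, mulVec_smul,
      smul_dotProduct, dotProduct_smul, smul_eq_mul] at h1
    have h2 : 0 < c * c := by positivity
    rw [← mul_assoc] at h1
    exact (mul_pos_iff_of_pos_left h2).1 h1
  obtain ⟨μ, hμf, hμ0, hμ⟩ := exists_annihilating_measure W (by
      intro w₁ hw₁ w₂ hw₂ s t _ _ _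
      obtain ⟨a, ha, ha'⟩ := hsm s w₁ hw₁
      obtain ⟨b, hb, hb'⟩ := hsm t w₂ hw₂
      refine ⟨_, haddS a b ha hb, fun p => ?_⟩
      rw [ContinuousMap.add_apply, ha' p, hb' p]; simp only [ev, add_mulVec, dotProduct_add])
    ⟨0, ⟨⟨fun i k => by simpa using contDiff_const, fun i x => rfl, fun x => by simp,
      fun i j k x => by simp [pd]⟩, fun x => by simp⟩, fun p => by simp [ev]⟩
    hsm hnp
  · refine ⟨μ.map Subtype.val, ⟨inferInstance, ?_, ?_, ?_⟩⟩
    · intro h
      exact hμ0 ((Measure.map_eq_zero_iff measurable_subtype_coe.aemeasurable).1 h)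
    · rw [ae_map_iff measurable_subtype_coe.aemeasurable
        isCompact_unitTangent.isClosed.measurableSet]
      exact Filter.Eventually.of_forall fun p => p.2
    · intro a ha hi
      rw [tcur, integral_map measurable_subtype_coe.aemeasurable
        (hcont a ha).aestronglyMeasurable]
      exact hμ ⟨_, (hcont a ha).comp continuous_subtype_val⟩ ⟨a, ⟨ha, hi⟩, fun _ => rfl⟩

end Torus

end Vale.Agent.P204
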