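import Vale.Agent.P204.Torus.Defs

/-!
# P204: wedge algebra of a complex structure on four-space

`det4` is the volume of four vectors. All statements here concern one linear complex structure `j`.
-/

open Matrix
open scoped ContDiff

namespace Vale.Agent.P204.Torus


/-- The value of a two-form on a pair of vectors, from its upper entries. -/
def ev2 (A : M4) (v w : Pt) : ℝ :=
  A 0 1 * (v 0 * w 1 - v 1 * w 0) + A 0 2 * (v 0 * w 2 - v 2 * w 0) +
  A 0 3 * (v 0 * w 3 - v 3 * w 0) + A 1 2 * (v 1 * w 2 - v 2 * w 1) +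
  A 1 3 * (v 1 * w 3 - v 3 * w 1) + A 2 3 * (v 2 * w 3 - v 3 * w 2)

/-- The two-form dual to the bivector `v ∧ w`: its pairing with a form `A` is `ev2 A v w`. -/
def dualBiv (v w : Pt) : M4 :=
  let p : Fin 4 → Fin 4 → ℝ := fun i j => v i * w j - v j * w i
  !![0, p 2 3, -p 1 3, p 1 2; -p 2 3, 0, p 0 3, -p 0 2; p 1 3, -p 0 3, 0, p 0 1;
    -p 1 2, p 0 2, -p 0 1, 0]

/-- The volume of four vectors. -/
def det4 (a b c d : Pt) : ℝ := wedge (dualBiv a b) (dualBiv c d)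

/-- Invariant forms. -/
def IsInv (j A : M4) : Prop := ∀ v w, ev2 A (j *ᵥ v) (j *ᵥ w) = ev2 A v w

/-- Anti-invariant forms. -/
def IsAnti (j A : M4) : Prop := ∀ v w, ev2 A (j *ᵥ v) (j *ᵥ w) = -ev2 A v w

theorem wedge_comm (A B : M4) : wedge A B = wedge B A := by
  unfold wedge; ring

theorem wedge_add_left (A A' B : M4) : wedge (A + A') B = wedge A B + wedge A' B := by
  simp only [wedge, Matrix.add_apply]; ring

theorem wedge_smul_left (t : ℝ) (A B : M4) : wedge (t • A) B = t * wedge A B := by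
  simp only [wedge, Matrix.smul_apply, smul_eq_mul]; ring

theorem wedge_dualBiv_left (v w : Pt) (A : M4) : wedge (dualBiv v w) A = ev2 A v w := by
  simp only [wedge, ev2, dualBiv, Matrix.of_apply, Matrix.cons_val', Matrix.cons_val_zero,
    Matrix.cons_val_one, Matrix.cons_val, Matrix.cons_val_fin_one]
  ring

theorem lineForm_eq (j : M4) (v : Pt) : lineForm j v = dualBiv v (j *ᵥ v) := rfl

theorem dualBiv_skew (v w : Pt) : (dualBiv v w)ᵀ = -dualBiv v w := by
  ext i k; fin_cases i <;> fin_cases k <;> simp [dualBiv]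

theorem det4_eq (a b c d : Pt) : det4 a b c d = ev2 (dualBiv c d) a b := wedge_dualBiv_left _ _ _

theorem dot_mulVec_eq_ev2 {A : M4} (hA : Aᵀ = -A) (v w : Pt) :
    v ⬝ᵥ (A *ᵥ w) = ev2 A v w := by
  have h : ∀ i j, A j i = -A i j := fun i j => congr_fun (congr_fun hA i) j
  have hd : ∀ i, A i i = 0 := fun i => by linarith [h i i]
  simp only [dotProduct, Matrix.mulVec, Fin.sum_univ_four, ev2, h 0 1, h 0 2, h 0 3, h 1 2, h 1 3,
    h 2 3, hd]
  ring

section det4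
variable (a b c d e : Pt) (s t : ℝ)

theorem det4_expand : det4 a b c d =
    (c 2 * d 3 - c 3 * d 2) * (a 0 * b 1 - a 1 * b 0) -
    (c 1 * d 3 - c 3 * d 1) * (a 0 * b 2 - a 2 * b 0) +
    (c 1 * d 2 - c 2 * d 1) * (a 0 * b 3 - a 3 * b 0) +
    (c 0 * d 3 - c 3 * d 0) * (a 1 * b 2 - a 2 * b 1) -
    (c 0 * d 2 - c 2 * d 0) * (a 1 * b 3 - a 3 * b 1) +
    (c 0 * d 1 - c 1 * d 0) * (a 2 * b 3 - a 3 * b 2) := by
  rw [det4_eq]
  simp only [ev2, dualBiv, Matrix.of_apply, Matrix.cons_val', Matrix.cons_val_zero,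
    Matrix.cons_val_one, Matrix.cons_val, Matrix.cons_val_fin_one]
  ring

theorem det4_swap : det4 c d a b = det4 a b c d := wedge_comm _ _

/-- Cramer's rule. -/
theorem cramer4 (i : Fin 4) : det4 a b c d * e i =
    det4 e b c d * a i + det4 a e c d * b i + det4 a b e d * c i + det4 a b c e * d i := by
  fin_cases i <;> simp only [det4_expand, Fin.isValue, Fin.zero_eta, Fin.mk_one, Fin.reduceFinMk]
    <;> ring

end det4

/-- Pairing of two forms read in the frame `P, Q, R, T`. -/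
theorem wedge_mul_det4 (A B : M4) (P Q R T : Pt) : wedge A B * det4 P Q R T =
    ev2 A P Q * ev2 B R T - ev2 A P R * ev2 B Q T + ev2 A P T * ev2 B Q R +
    ev2 A Q R * ev2 B P T - ev2 A Q T * ev2 B P R + ev2 A R T * ev2 B P Q := by
  simp only [det4_expand, wedge, ev2]; ring

section algebra
variable {j : M4} (hj : j * j = -1)
include hj

theorem mulVec_mulVec_self (v : Pt) : j *ᵥ (j *ᵥ v) = -v := by
  rw [mulVec_mulVec, hj, neg_mulVec, one_mulVec]

omit hj in
theorem exists_frame_coeff {P R : Pt} (h : det4 P (j *ᵥ P) R (j *ᵥ R) ≠ 0) (v : Pt) :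
    ∃ a b c d : ℝ, v = a • P + b • (j *ᵥ P) + c • R + d • (j *ᵥ R) := by
  set Δ := det4 P (j *ᵥ P) R (j *ᵥ R)
  refine ⟨det4 v (j *ᵥ P) R (j *ᵥ R) / Δ, det4 P v R (j *ᵥ R) / Δ,
    det4 P (j *ᵥ P) v (j *ᵥ R) / Δ, det4 P (j *ᵥ P) R v / Δ, ?_⟩
  funext i
  have := cramer4 P (j *ᵥ P) R (j *ᵥ R) v i
  simp only [Pi.add_apply, Pi.smul_apply, smul_eq_mul]
  field_simp
  linarith

/-- Any two pairs of complex lines have the same orientation. -/
theorem det4_lines_mul_nonneg (v u P R : Pt) :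
    0 ≤ det4 v (j *ᵥ v) u (j *ᵥ u) * det4 P (j *ᵥ P) R (j *ᵥ R) := by
  by_cases h : det4 P (j *ᵥ P) R (j *ᵥ R) = 0
  · simp [h]
  obtain ⟨a, b, c, d, hv⟩ := exists_frame_coeff h v
  obtain ⟨e, f, g, k, hu⟩ := exists_frame_coeff h u
  have hlin : ∀ a b c d : ℝ, j *ᵥ (a • P + b • (j *ᵥ P) + c • R + d • (j *ᵥ R)) =
      (-b) • P + a • (j *ᵥ P) + (-d) • R + c • (j *ᵥ R) := fun a b c d => by
    simp only [mulVec_add, mulVec_smul, mulVec_mulVec_self hj, smul_neg, neg_smul]; abel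
  have key : det4 v (j *ᵥ v) u (j *ᵥ u) =
      ((a * g - b * k - c * e + d * f) ^ 2 + (a * k + b * g - c * f - d * e) ^ 2) *
        det4 P (j *ᵥ P) R (j *ᵥ R) := by
    rw [hv, hu, hlin, hlin]
    generalize j *ᵥ P = Q
    generalize j *ᵥ R = T
    simp only [det4_expand, Pi.add_apply, Pi.smul_apply, smul_eq_mul]
    ring
  rw [key, mul_assoc]
  exact mul_nonneg (by positivity) (mul_self_nonneg _)

/-- A vector off a complex line spans with it the whole space. -/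
theorem det4_ne_zero_of_off {P R : Pt} (hP : P ≠ 0)
    (hR : ∀ a b : ℝ, R ≠ a • P + b • (j *ᵥ P)) : det4 P (j *ᵥ P) R (j *ᵥ R) ≠ 0 := by
  intro h0
  let M : M4 := (Matrix.of ![P, j *ᵥ P, R, j *ᵥ R])ᵀ
  have hdet : M.det = det4 P (j *ᵥ P) R (j *ᵥ R) := by
    show (Matrix.of ![P, j *ᵥ P, R, j *ᵥ R])ᵀ.det = _
    rw [Matrix.det_transpose, Matrix.det_succ_row_zero]
    simp [Fin.sum_univ_succ, Matrix.det_fin_three, det4_expand, Fin.succAbove]
    ring
  obtain ⟨z, hz, hMz⟩ := Matrix.exists_mulVec_eq_zero_iff.2 (hdet.trans h0)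
  have hsum : z 0 • P + z 1 • (j *ᵥ P) + z 2 • R + z 3 • (j *ᵥ R) = 0 := by
    funext i
    have : ∑ k, M i k * z k = 0 := congr_fun hMz i
    simp [M, Fin.sum_univ_four] at this
    simp only [Pi.add_apply, Pi.smul_apply, smul_eq_mul, Pi.zero_apply]
    linarith
  have hjsum : (-z 1) • P + z 0 • (j *ᵥ P) + (-z 3) • R + z 2 • (j *ᵥ R) = 0 := by
    have := congr_arg (fun w => j *ᵥ w) hsum
    simp only [mulVec_add, mulVec_smul, mulVec_mulVec_self hj, mulVec_zero] at this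
    rw [← this]; simp only [smul_neg, neg_smul]; abel
  by_cases hcd : z 2 ^ 2 + z 3 ^ 2 = 0
  · have h2 : z 2 = 0 := by nlinarith [sq_nonneg (z 3)]
    have h3 : z 3 = 0 := by nlinarith [sq_nonneg (z 2)]
    have h01 : (z 0 ^ 2 + z 1 ^ 2) • P = 0 := by
      funext i
      have e1 := congr_fun hsum i
      have e2 := congr_fun hjsum i
      simp only [Pi.add_apply, Pi.smul_apply, smul_eq_mul, Pi.zero_apply, h2, h3] at e1 e2 ⊢
      linear_combination (z 0) * e1 - (z 1) * e2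
    rcases smul_eq_zero.1 h01 with h | h
    · apply hz
      have h0' : z 0 = 0 := by nlinarith [sq_nonneg (z 1)]
      have h1' : z 1 = 0 := by nlinarith [sq_nonneg (z 0)]
      funext i; fin_cases i <;> simp [h0', h1', h2, h3]
    · exact hP h
  · refine hR (-(z 2 * z 0 + z 3 * z 1) / (z 2 ^ 2 + z 3 ^ 2))
      (-(z 2 * z 1 - z 3 * z 0) / (z 2 ^ 2 + z 3 ^ 2)) ?_
    funext i
    have e1 := congr_fun hsum i
    have e2 := congr_fun hjsum i
    simp only [Pi.add_apply, Pi.smul_apply, smul_eq_mul, Pi.zero_apply] at e1 e2 ⊢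
    field_simp
    linear_combination (z 2) * e1 - (z 3) * e2

theorem anti_frame {A : M4} (hA : IsAnti j A) (P R : Pt) :
    ev2 A P (j *ᵥ P) = 0 ∧ ev2 A (j *ᵥ P) (j *ᵥ R) = -ev2 A P R ∧
      ev2 A (j *ᵥ P) R = ev2 A P (j *ᵥ R) := by
  refine ⟨?_, hA P R, ?_⟩
  · have h := hA P (j *ᵥ P)
    rw [mulVec_mulVec_self hj] at h
    have : ev2 A (j *ᵥ P) (-P) = ev2 A P (j *ᵥ P) := by simp only [ev2, Pi.neg_apply]; ring
    linarith
  · have h := hA P (j *ᵥ R)
    rw [mulVec_mulVec_self hj] at h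
    have : ev2 A (j *ᵥ P) (-R) = -ev2 A (j *ᵥ P) R := by simp only [ev2, Pi.neg_apply]; ring
    linarith

theorem inv_frame {A : M4} (hA : IsInv j A) (P R : Pt) :
    ev2 A (j *ᵥ P) (j *ᵥ R) = ev2 A P R ∧ ev2 A (j *ᵥ P) R = -ev2 A P (j *ᵥ R) := by
  refine ⟨hA P R, ?_⟩
  have h := hA P (j *ᵥ R)
  rw [mulVec_mulVec_self hj] at h
  have : ev2 A (j *ᵥ P) (-R) = -ev2 A (j *ᵥ P) R := by simp only [ev2, Pi.neg_apply]; ring
  linarith

/-- The square of an anti-invariant form. -/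
theorem wedge_anti_self {A : M4} (hA : IsAnti j A) (P R : Pt) :
    wedge A A * det4 P (j *ᵥ P) R (j *ᵥ R) =
      2 * (ev2 A P R ^ 2 + ev2 A P (j *ᵥ R) ^ 2) := by
  obtain ⟨h1, h2, h3⟩ := anti_frame hj hA P R
  rw [wedge_mul_det4, h1, (anti_frame hj hA R R).1, h2, h3]
  ring

/-- Invariant and anti-invariant forms are orthogonal. -/
theorem wedge_inv_anti {A B : M4} (hA : IsInv j A) (hB : IsAnti j B) {P R : Pt}
    (h : det4 P (j *ᵥ P) R (j *ᵥ R) ≠ 0) : wedge A B = 0 := by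
  obtain ⟨h1, h2, h3⟩ := anti_frame hj hB P R
  obtain ⟨h4, h5⟩ := inv_frame hj hA P R
  have := wedge_mul_det4 A B P (j *ᵥ P) R (j *ᵥ R)
  rw [h1, (anti_frame hj hB R R).1, h2, h3, h4, h5] at this
  exact (mul_eq_zero.1 (this.trans (by ring))).resolve_right h

/-- An anti-invariant form with vanishing frame values is zero on upper entries. -/
theorem wedge_eq_zero_of_anti {A : M4} (hA : IsAnti j A) {P R : Pt}
    (h : det4 P (j *ᵥ P) R (j *ᵥ R) ≠ 0) (h0 : wedge A A = 0) (B : M4) : wedge A B = 0 := by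
  have h2 := wedge_anti_self hj hA P R
  rw [h0, zero_mul] at h2
  have hr : ev2 A P R = 0 := by nlinarith [sq_nonneg (ev2 A P (j *ᵥ R))]
  have ht : ev2 A P (j *ᵥ R) = 0 := by nlinarith [sq_nonneg (ev2 A P R)]
  obtain ⟨a1, a2, a3⟩ := anti_frame hj hA P R
  have := wedge_mul_det4 A B P (j *ᵥ P) R (j *ᵥ R)
  rw [a1, (anti_frame hj hA R R).1, a2, a3, hr, ht] at this
  exact (mul_eq_zero.1 (this.trans (by ring))).resolve_right h

end algebra

end Vale.Agent.P204.Torus
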