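import Vale.Agent.P204.Torus.Wedge

/-!
# P204: wedge bounds, uniform over bounded complex structures

Nothing here refers to the torus: every statement quantifies over matrices `j` with `j * j = -1`
and entries bounded by a constant. `oSgn j` is the orientation of `j`.
-/

open Matrix

namespace Vale.Agent.P204.Torus

/-- The `j`-invariant metric. -/
def gJ (j : M4) (a b : Pt) : ℝ := a ⬝ᵥ b + (j *ᵥ a) ⬝ᵥ (j *ᵥ b)

/-- The component of `v` orthogonal to the complex line of `u`. -/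
noncomputable def perp (j : M4) (u v : Pt) : Pt :=
  v - (gJ j v u / gJ j u u) • u - (gJ j v (j *ᵥ u) / gJ j u u) • (j *ᵥ u)

theorem gJ_comm (j : M4) (a b : Pt) : gJ j a b = gJ j b a := by
  unfold gJ; rw [dotProduct_comm a b, dotProduct_comm (j *ᵥ a)]

theorem gJ_add_left (j : M4) (a b c : Pt) : gJ j (a + b) c = gJ j a c + gJ j b c := by
  simp only [gJ, mulVec_add, add_dotProduct]; ring

theorem gJ_smul_left (j : M4) (t : ℝ) (a c : Pt) : gJ j (t • a) c = t * gJ j a c := by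
  simp only [gJ, mulVec_smul, smul_dotProduct, smul_eq_mul]; ring

theorem gJ_sub_left (j : M4) (a b c : Pt) : gJ j (a - b) c = gJ j a c - gJ j b c := by
  simp only [gJ, mulVec_sub, sub_dotProduct]; ring

theorem sq_norm_le_gJ (j : M4) (a : Pt) : ‖a‖ ^ 2 ≤ gJ j a a := by
  have h0 : ∀ b : Pt, 0 ≤ b ⬝ᵥ b := fun b => Finset.sum_nonneg fun i _ => mul_self_nonneg _
  have h1 : ‖a‖ ≤ Real.sqrt (a ⬝ᵥ a) := by
    refine (pi_norm_le_iff_of_nonneg (Real.sqrt_nonneg _)).2 fun i => ?_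
    rw [Real.norm_eq_abs, ← Real.sqrt_mul_self_eq_abs]
    exact Real.sqrt_le_sqrt (Finset.single_le_sum (s := Finset.univ) (f := fun k => a k * a k)
      (fun k _ => mul_self_nonneg _) (Finset.mem_univ i))
  have h2 := pow_le_pow_left₀ (norm_nonneg _) h1 2
  rw [Real.sq_sqrt (h0 _)] at h2
  have := h0 (j *ᵥ a)
  unfold gJ; linarith

theorem gJ_pos (j : M4) {a : Pt} (ha : a ≠ 0) : 0 < gJ j a a :=
  lt_of_lt_of_le (by positivity) (sq_norm_le_gJ j a)

theorem abs_dot_le (a b : Pt) : |a ⬝ᵥ b| ≤ 4 * ‖a‖ * ‖b‖ := by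
  refine (Finset.abs_sum_le_sum_abs _ _).trans ?_
  refine le_trans (Finset.sum_le_sum (g := fun _ => ‖a‖ * ‖b‖) fun i _ => ?_) (by simp; linarith)
  rw [abs_mul]
  exact mul_le_mul (norm_le_pi_norm a i) (norm_le_pi_norm b i) (abs_nonneg _) (norm_nonneg _)

theorem norm_mulVec_le {A : M4} {C : ℝ} (hC : ∀ i k, |A i k| ≤ C) (v : Pt) :
    ‖A *ᵥ v‖ ≤ 4 * C * ‖v‖ := by
  have hC0 : 0 ≤ C := (abs_nonneg _).trans (hC 0 0)
  refine (pi_norm_le_iff_of_nonneg (by positivity)).2 fun i => ?_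
  rw [Real.norm_eq_abs]
  simp only [Matrix.mulVec, dotProduct]
  refine (Finset.abs_sum_le_sum_abs _ _).trans ?_
  have h : ∀ k, |A i k * v k| ≤ C * ‖v‖ := fun k => by
    rw [abs_mul]
    exact mul_le_mul (hC i k) (norm_le_pi_norm v k) (abs_nonneg _) hC0
  rw [Fin.sum_univ_four]; linarith [h 0, h 1, h 2, h 3]

theorem abs_dualBiv_le (v w : Pt) (i k : Fin 4) : |dualBiv v w i k| ≤ 2 * ‖v‖ * ‖w‖ := by
  have h : ∀ a b, |v a * w b - v b * w a| ≤ 2 * ‖v‖ * ‖w‖ := fun a b => by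
    refine (abs_sub _ _).trans ?_
    rw [abs_mul, abs_mul]
    have h1 : |v a| * |w b| ≤ ‖v‖ * ‖w‖ := mul_le_mul (norm_le_pi_norm v a) (norm_le_pi_norm w b)
      (abs_nonneg _) (norm_nonneg _)
    have h2 : |v b| * |w a| ≤ ‖v‖ * ‖w‖ := mul_le_mul (norm_le_pi_norm v b) (norm_le_pi_norm w a)
      (abs_nonneg _) (norm_nonneg _)
    linarith
  have h0 : 0 ≤ 2 * ‖v‖ * ‖w‖ := by positivity
  fin_cases i <;> fin_cases k <;> simp [dualBiv, h, h0, abs_sub_comm]

theorem abs_ev2_le {A : M4} {C : ℝ} (hC : ∀ i k, |A i k| ≤ C) (v w : Pt) :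
    |ev2 A v w| ≤ 12 * C * ‖v‖ * ‖w‖ := by
  have hC0 : 0 ≤ C := (abs_nonneg _).trans (hC 0 0)
  have h : ∀ i k a b, |A i k * (v a * w b - v b * w a)| ≤ 2 * C * ‖v‖ * ‖w‖ := fun i k a b => by
    rw [abs_mul]
    have h1 : |v a * w b - v b * w a| ≤ 2 * ‖v‖ * ‖w‖ := by
      refine (abs_sub _ _).trans ?_
      rw [abs_mul, abs_mul]
      have h1 : |v a| * |w b| ≤ ‖v‖ * ‖w‖ := mul_le_mul (norm_le_pi_norm v a)
        (norm_le_pi_norm w b) (abs_nonneg _) (norm_nonneg _)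
      have h2 : |v b| * |w a| ≤ ‖v‖ * ‖w‖ := mul_le_mul (norm_le_pi_norm v b)
        (norm_le_pi_norm w a) (abs_nonneg _) (norm_nonneg _)
      linarith
    calc |A i k| * |v a * w b - v b * w a| ≤ C * (2 * ‖v‖ * ‖w‖) :=
          mul_le_mul (hC i k) h1 (abs_nonneg _) hC0
      _ = 2 * C * ‖v‖ * ‖w‖ := by ring
  simp only [ev2]
  have := abs_le.1 (h 0 1 0 1); have := abs_le.1 (h 0 2 0 2); have := abs_le.1 (h 0 3 0 3)
  have := abs_le.1 (h 1 2 1 2); have := abs_le.1 (h 1 3 1 3); have := abs_le.1 (h 2 3 2 3)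
  rw [abs_le]; constructor <;> linarith

theorem abs_det4_le (a b c d : Pt) : |det4 a b c d| ≤ 24 * ‖a‖ * ‖b‖ * ‖c‖ * ‖d‖ := by
  rw [det4_eq]
  exact (abs_ev2_le (fun i k => abs_dualBiv_le c d i k) a b).trans (le_of_eq (by ring))

section fixed
variable {j : M4} (hj : j * j = -1)
include hj

theorem gJ_j (a b : Pt) : gJ j (j *ᵥ a) (j *ᵥ b) = gJ j a b := by
  simp only [gJ, mulVec_mulVec_self hj, neg_dotProduct, dotProduct_neg, neg_neg]; ring

theorem gJ_j_left (a b : Pt) : gJ j (j *ᵥ a) b = -gJ j a (j *ᵥ b) := by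
  simp only [gJ, mulVec_mulVec_self hj, neg_dotProduct, dotProduct_neg]; ring

theorem gJ_self_j (a : Pt) : gJ j a (j *ᵥ a) = 0 := by
  have h := gJ_j_left hj a a
  rw [gJ_comm] at h; linarith

theorem gJ_perp {u : Pt} (hu : u ≠ 0) (v : Pt) :
    gJ j (perp j u v) u = 0 ∧ gJ j (perp j u v) (j *ᵥ u) = 0 := by
  have := (gJ_pos j hu).ne'
  have h1 : gJ j (j *ᵥ u) u = 0 := by rw [gJ_comm]; exact gJ_self_j hj u
  constructor <;> simp only [perp, gJ_sub_left, gJ_smul_left, h1, gJ_self_j hj u, gJ_j hj] <;>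
    field_simp <;> ring

theorem perp_j (u v : Pt) : perp j u (j *ᵥ v) = j *ᵥ perp j u v := by
  simp only [perp, mulVec_sub, mulVec_smul, mulVec_mulVec_self hj, gJ_j_left hj v u,
    gJ_j hj v u, neg_div, neg_smul, smul_neg]
  abel

theorem gJ_perp_self {u : Pt} (hu : u ≠ 0) (v : Pt) :
    gJ j (perp j u v) (perp j u v) = gJ j v v -
      (gJ j v u ^ 2 + gJ j v (j *ᵥ u) ^ 2) / gJ j u u := by
  obtain ⟨h1, h2⟩ := gJ_perp hj hu v
  have hp := gJ_pos j hu
  have h3 : gJ j (perp j u v) (perp j u v) = gJ j v (perp j u v) -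
      gJ j v u / gJ j u u * gJ j u (perp j u v) -
      gJ j v (j *ᵥ u) / gJ j u u * gJ j (j *ᵥ u) (perp j u v) := by
    conv_lhs => arg 2; rw [perp]
    simp only [gJ_sub_left, gJ_smul_left]
  rw [h3, gJ_comm j u (perp j u v), gJ_comm j (j *ᵥ u) (perp j u v), h1, h2,
    gJ_comm j v (perp j u v), perp, gJ_sub_left, gJ_sub_left, gJ_smul_left, gJ_smul_left,
    gJ_comm j u v, gJ_comm j (j *ᵥ u) v]
  field_simp
  ring

/-- The third vector may be replaced by its perpendicular component. -/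
theorem det4_perp (u v w : Pt) :
    det4 u (j *ᵥ u) v w = det4 u (j *ᵥ u) (perp j u v) w := by
  simp only [perp]
  generalize gJ j v u / gJ j u u = a
  generalize gJ j v (j *ᵥ u) / gJ j u u = b
  generalize j *ᵥ u = q
  simp only [det4_expand, Pi.sub_apply, Pi.smul_apply, smul_eq_mul]
  ring

theorem det4_perp_line (u v : Pt) : det4 u (j *ᵥ u) v (j *ᵥ v) =
    det4 u (j *ᵥ u) (perp j u v) (j *ᵥ perp j u v) := by
  rw [det4_perp hj, show ∀ a b c d : Pt, det4 a b c d = -det4 a b d c from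
      fun a b c d => by simp only [det4_expand]; ring,
    det4_perp hj u (j *ᵥ v), perp_j hj,
    show ∀ a b c d : Pt, det4 a b c d = -det4 a b d c from
      fun a b c d => by simp only [det4_expand]; ring]
  ring

end fixed

/-- Orientation reference of a complex structure. -/
def psi (j : M4) : ℝ :=
  ∑ i : Fin 4, ∑ k : Fin 4,
    det4 (Pi.single i 1) (j *ᵥ Pi.single i 1) (Pi.single k 1) (j *ᵥ Pi.single k 1)

/-- The orientation sign of a complex structure. -/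
noncomputable def oSgn (j : M4) : ℝ := if 0 < psi j then 1 else -1

theorem oSgn_cases (j : M4) : oSgn j = 1 ∨ oSgn j = -1 := by
  unfold oSgn; split_ifs <;> simp

theorem abs_oSgn_mul (j : M4) (t : ℝ) : |oSgn j * t| = |t| := by
  rcases oSgn_cases j with h | h <;> simp [h]

section fixed
variable {j : M4} (hj : j * j = -1)
include hj

theorem exists_frame : ∃ k : Fin 4, det4 (Pi.single 0 1) (j *ᵥ Pi.single 0 1) (Pi.single k 1)
    (j *ᵥ Pi.single k 1) ≠ 0 := by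
  by_contra! h
  have h1 : ∀ k : Fin 4, ∃ a b : ℝ,
      (Pi.single k 1 : Pt) = a • Pi.single 0 1 + b • (j *ᵥ Pi.single 0 1) := fun k => by
    by_contra! hk
    exact det4_ne_zero_of_off hj (fun h => by simpa using congr_fun h 0) hk (h k)
  obtain ⟨a1, b1, h1'⟩ := h1 1
  obtain ⟨a2, b2, h2'⟩ := h1 2
  have e11 := congr_fun h1' 1; have e12 := congr_fun h1' 2
  have e22 := congr_fun h2' 2
  simp at e11 e12 e22
  rcases e12 with hb | hb
  · rw [hb] at e11; linarith [e11]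
  · rw [hb] at e22; linarith [e22]

theorem psi_ne_zero : psi j ≠ 0 := by
  intro h0
  obtain ⟨k, hk⟩ := exists_frame hj
  set D := det4 (Pi.single 0 1) (j *ᵥ Pi.single 0 1) (Pi.single k 1) (j *ᵥ Pi.single k 1) with hD
  have hnn : ∀ i ∈ (Finset.univ : Finset (Fin 4)), ∀ l ∈ (Finset.univ : Finset (Fin 4)),
      0 ≤ det4 (Pi.single i 1) (j *ᵥ Pi.single i 1) (Pi.single l 1) (j *ᵥ Pi.single l 1) * D :=
    fun i _ l _ => det4_lines_mul_nonneg hj _ _ _ _
  have h1 : ∑ i : Fin 4, ∑ l : Fin 4, det4 (Pi.single i 1) (j *ᵥ Pi.single i 1)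
      (Pi.single l 1) (j *ᵥ Pi.single l 1) * D = 0 := by
    simp only [← Finset.sum_mul]; exact mul_eq_zero_of_left h0 _
  have h2 := (Finset.sum_eq_zero_iff_of_nonneg fun i hi => Finset.sum_nonneg (hnn i hi)).1 h1 0
    (Finset.mem_univ 0)
  have h3 := (Finset.sum_eq_zero_iff_of_nonneg (hnn 0 (Finset.mem_univ 0))).1 h2 k
    (Finset.mem_univ k)
  exact hk (mul_self_eq_zero.1 h3)

theorem oSgn_psi_pos : 0 < oSgn j * psi j := by
  have := psi_ne_zero hj
  unfold oSgn; split_ifs with h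
  · simpa using h
  · linarith [lt_of_le_of_ne (not_lt.1 h) this]

/-- Complex lines at one point pair nonnegatively. -/
theorem det4_lines_nonneg (v u : Pt) : 0 ≤ oSgn j * det4 v (j *ᵥ v) u (j *ᵥ u) := by
  have h1 : 0 ≤ psi j * det4 v (j *ᵥ v) u (j *ᵥ u) := by
    simp only [psi, Finset.sum_mul]
    exact Finset.sum_nonneg fun i _ => Finset.sum_nonneg fun k _ =>
      det4_lines_mul_nonneg hj _ _ _ _
  have h2 := oSgn_psi_pos hj
  rcases oSgn_cases j with h | h <;> rw [h] at h2 ⊢ <;> nlinarith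

/-- The square of an anti-invariant form is nonnegative. -/
theorem wedge_anti_nonneg {A : M4} (hA : IsAnti j A) : 0 ≤ oSgn j * wedge A A := by
  obtain ⟨k, hk⟩ := exists_frame hj
  have h1 := wedge_anti_self hj hA (Pi.single 0 1) (Pi.single k 1)
  have h2 := det4_lines_nonneg hj (Pi.single 0 1) (Pi.single k 1)
  set D := det4 (Pi.single 0 1) (j *ᵥ Pi.single 0 1) (Pi.single k 1) (j *ᵥ Pi.single k 1) with hD
  have h3 : 0 ≤ wedge A A * D := by rw [h1]; positivity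
  have hDD : 0 < D * D := mul_self_pos.2 hk
  have h4 := mul_nonneg h2 h3
  by_contra hn
  nlinarith [mul_pos hDD (neg_pos.2 (not_le.1 hn))]

end fixed

/-- Complex structures with entries bounded by `B`. -/
def Jset (B : ℝ) : Set (Fin 4 → Fin 4 → ℝ) :=
  {a | (Matrix.of a : M4) * Matrix.of a = -1} ∩ {a | ∀ i k, a i k ∈ Set.Icc (-B) B}

theorem isCompact_Jset (B : ℝ) : IsCompact (Jset B) := by
  have h : IsCompact {a : Fin 4 → Fin 4 → ℝ | ∀ i k, a i k ∈ Set.Icc (-B) B} := by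
    simpa [Set.pi] using isCompact_univ_pi fun (_ : Fin 4) =>
      isCompact_univ_pi fun (_ : Fin 4) => isCompact_Icc (a := -B) (b := B)
  refine h.inter_left (isClosed_eq ?_ continuous_const)
  refine continuous_pi fun i => continuous_pi fun k => ?_
  simp only [Matrix.mul_apply, Matrix.of_apply]
  fun_prop

/-- Uniform transversality: lines at one point pair at least as their squared angle. -/
theorem exists_det4_lines_lower (B : ℝ) : ∃ c : ℝ, 0 < c ∧ ∀ j : M4, j * j = -1 →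
    (∀ i k, |j i k| ≤ B) → ∀ u v, u ≠ 0 →
    c * ‖u‖ ^ 2 * ‖perp j u v‖ ^ 2 ≤ oSgn j * det4 u (j *ᵥ u) v (j *ᵥ v) := by
  set S : Set ((Fin 4 → Fin 4 → ℝ) × Pt × Pt) :=
    (Jset B ×ˢ Metric.sphere 0 1 ×ˢ Metric.sphere 0 1) ∩
    {p | gJ (Matrix.of p.1) p.2.2 p.2.1 = 0 ∧
      gJ (Matrix.of p.1) p.2.2 (Matrix.of p.1 *ᵥ p.2.1) = 0} with hSdef
  have hS : IsCompact S := by
    refine ((isCompact_Jset B).prod
      ((isCompact_sphere _ _).prod (isCompact_sphere _ _))).inter_right ?_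
    simp only [gJ, Matrix.mulVec, dotProduct, Matrix.of_apply]
    exact (isClosed_eq (by fun_prop) continuous_const).inter
      (isClosed_eq (by fun_prop) continuous_const)
  obtain ⟨c, hc0, hle⟩ := hS.exists_forall_le' (a := (0 : ℝ))
    (f := fun p => |det4 p.2.1 (Matrix.of p.1 *ᵥ p.2.1) p.2.2 (Matrix.of p.1 *ᵥ p.2.2)|) (by
      simp only [det4_expand, Matrix.mulVec, dotProduct, Matrix.of_apply]
      fun_prop) (by
      rintro ⟨a, u, e⟩ ⟨⟨⟨hj, -⟩, hu, he⟩, h1, h2⟩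
      replace hj : (Matrix.of a : M4) * Matrix.of a = -1 := hj
      simp only [mem_sphere_zero_iff_norm] at hu he
      simp only at h1 h2
      have hu0 : u ≠ 0 := fun h => by simp [h] at hu
      refine abs_pos.2 (det4_ne_zero_of_off hj hu0 fun s t hst => ?_)
      have hp := gJ_pos (Matrix.of a) hu0
      have h3 : gJ (Matrix.of a) (Matrix.of a *ᵥ u) u = 0 := by
        rw [gJ_comm]; exact gJ_self_j hj u
      simp only at hst
      rw [hst] at h1 h2
      simp only [gJ_add_left, gJ_smul_left, h3, gJ_self_j hj, gJ_j hj] at h1 h2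
      have hs : s = 0 := by simpa [hp.ne'] using h1
      have ht : t = 0 := by simpa [hp.ne'] using h2
      simp [hst, hs, ht] at he)
  refine ⟨c, hc0, fun j hj hB u v hu => ?_⟩
  rw [det4_perp_line hj]
  obtain ⟨h1, h2⟩ := gJ_perp hj hu v
  generalize perp j u v = e at *
  by_cases he : e = 0
  · simp [he, det4_expand]
  have hun := norm_ne_zero_iff.2 hu
  have hen := norm_ne_zero_iff.2 he
  have h5 := hle (fun i k => j i k, ‖u‖⁻¹ • u, ‖e‖⁻¹ • e)
    ⟨⟨⟨hj, fun i k => abs_le.1 (hB i k)⟩, by simp [norm_smul, hun], by simp [norm_smul, hen]⟩,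
    show gJ j _ _ = 0 by rw [gJ_smul_left, gJ_comm, gJ_smul_left, gJ_comm, h1]; ring,
    show gJ j _ (j *ᵥ _) = 0 by
      rw [mulVec_smul, gJ_smul_left, gJ_comm, gJ_smul_left, gJ_comm, h2]; ring⟩
  change c ≤ |det4 (‖u‖⁻¹ • u) (j *ᵥ (‖u‖⁻¹ • u)) (‖e‖⁻¹ • e) (j *ᵥ (‖e‖⁻¹ • e))| at h5
  have hexp : det4 (‖u‖⁻¹ • u) (j *ᵥ (‖u‖⁻¹ • u)) (‖e‖⁻¹ • e) (j *ᵥ (‖e‖⁻¹ • e)) =
      det4 u (j *ᵥ u) e (j *ᵥ e) / (‖u‖ ^ 2 * ‖e‖ ^ 2) := by
    simp only [mulVec_smul, det4_expand, Pi.smul_apply, smul_eq_mul]; field_simp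
  rw [hexp, abs_div, abs_of_pos (by positivity : 0 < ‖u‖ ^ 2 * ‖e‖ ^ 2),
    le_div_iff₀ (by positivity), ← abs_oSgn_mul j, abs_of_nonneg (det4_lines_nonneg hj u e)] at h5
  linarith

/-- Uniform positivity of the square of anti-invariant forms. -/
theorem exists_anti_lower (B : ℝ) : ∃ c : ℝ, 0 < c ∧ ∀ j : M4, j * j = -1 →
    (∀ i k, |j i k| ≤ B) → ∀ A : M4, Aᵀ = -A → IsAnti j A →
    c * sq2 A ≤ oSgn j * wedge A A := by
  set S : Set ((Fin 4 → Fin 4 → ℝ) × (Fin 4 → Fin 4 → ℝ)) :=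
    (Jset B ×ˢ Metric.sphere 0 1) ∩
    {p | (∀ i k, p.2 i k = -p.2 k i) ∧ IsAnti (Matrix.of p.1) (Matrix.of p.2)} with hSdef
  have hS : IsCompact S := by
    refine ((isCompact_Jset B).prod (isCompact_sphere _ _)).inter_right ?_
    simp only [IsAnti, Set.ofPred_and, Set.ofPred_forall, ev2, Matrix.mulVec, dotProduct,
      Matrix.of_apply]
    exact (isClosed_iInter fun i => isClosed_iInter fun k =>
      isClosed_eq (by fun_prop) (by fun_prop)).inter
      (isClosed_iInter fun v => isClosed_iInter fun w => isClosed_eq (by fun_prop) (by fun_prop))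
  obtain ⟨c, hc0, hle⟩ := hS.exists_forall_le' (a := (0 : ℝ))
    (f := fun p => |wedge (Matrix.of p.2) (Matrix.of p.2)|) (by
      simp only [wedge, Matrix.of_apply]; fun_prop) (by
      rintro ⟨b, a⟩ ⟨⟨⟨hj, -⟩, ha⟩, hsk, hA⟩
      replace hj : (Matrix.of b : M4) * Matrix.of b = -1 := hj
      simp only [mem_sphere_zero_iff_norm] at ha
      simp only at hsk
      refine abs_pos.2 fun h0 => ?_
      obtain ⟨k, hk⟩ := exists_frame hj
      have hB := wedge_eq_zero_of_anti hj hA hk h0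
      have hev : ∀ v w, ev2 (Matrix.of a) v w = 0 := fun v w => by
        rw [← wedge_dualBiv_left, wedge_comm]; exact hB _
      have : a = 0 := by
        funext i k
        have hd : ∀ i, a i i = 0 := fun i => by linarith [hsk i i]
        have h := hev (Pi.single i 1) (Pi.single k 1)
        fin_cases i <;> fin_cases k <;>
          simp [ev2, hd] at h ⊢ <;>
            linarith [hsk 1 0, hsk 2 0, hsk 3 0, hsk 2 1, hsk 3 1, hsk 3 2]
      simp [this] at ha)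
  refine ⟨c / 16, by linarith, fun j hj hB A hsk hA => ?_⟩
  let a : Fin 4 → Fin 4 → ℝ := fun i k => A i k
  by_cases ha : a = 0
  · have : A = 0 := by ext i k; exact congr_fun (congr_fun ha i) k
    simp [this, sq2, wedge]
  have hn := norm_ne_zero_iff.2 ha
  have hsk' : ∀ i k, A i k = -A k i := fun i k => congr_fun (congr_fun hsk k) i
  have h5 := hle (fun i k => j i k, ‖a‖⁻¹ • a)
    ⟨⟨⟨hj, fun i k => abs_le.1 (hB i k)⟩, by simp [norm_smul, hn]⟩, fun i k => by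
      simp only [Pi.smul_apply, smul_eq_mul, a]; rw [hsk' i k]; ring,
    show IsAnti j _ from fun v w => by
      have h := hA v w
      simp only [ev2, Matrix.of_apply, Pi.smul_apply, smul_eq_mul, a] at h ⊢
      linear_combination ‖a‖⁻¹ * h⟩
  have hWs : wedge (Matrix.of (‖a‖⁻¹ • a)) (Matrix.of (‖a‖⁻¹ • a)) = wedge A A / ‖a‖ ^ 2 := by
    simp only [wedge, Matrix.of_apply, Pi.smul_apply, smul_eq_mul, a]; field_simp
  change c ≤ |wedge (Matrix.of (‖a‖⁻¹ • a)) (Matrix.of (‖a‖⁻¹ • a))| at h5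
  rw [hWs, abs_div, abs_of_pos (by positivity : 0 < ‖a‖ ^ 2), le_div_iff₀ (by positivity),
    ← abs_oSgn_mul j, abs_of_nonneg (wedge_anti_nonneg hj hA)] at h5
  have hle2 : sq2 A ≤ 16 * ‖a‖ ^ 2 := by
    have h : ∀ i k, A i k ^ 2 ≤ ‖a‖ ^ 2 := fun i k => sq_le_sq.2 (by
      rw [abs_norm]; exact (norm_le_pi_norm (a i) k).trans (norm_le_pi_norm a i))
    refine (Finset.sum_le_sum fun i _ => Finset.sum_le_sum fun k _ => h i k).trans ?_
    simp; linarith
  nlinarith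

/-- `offSq` is, up to bounded factors, the squared length of the perpendicular component. -/
theorem offSq_eq {j : M4} (hj : j * j = -1) {l : Pt} (hl : l ≠ 0) (v : Pt) :
    offSq j l v = gJ j l l * gJ j (perp j l v) (perp j l v) / 4 := by
  have hev : ∀ a b, ev (gH j) a b = gJ j a b / 2 := fun a b => by
    simp only [ev, gH, gJ, smul_mulVec, add_mulVec, one_mulVec, dotProduct_smul, smul_eq_mul,
      dotProduct_add, ← mulVec_mulVec, dotProduct_mulVec a jᵀ, vecMul_transpose]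
    ring
  rw [gJ_perp_self hj hl]
  have := (gJ_pos j hl).ne'
  simp only [offSq, hev]
  field_simp
  ring

theorem offSq_nonneg {j : M4} (hj : j * j = -1) (l v : Pt) : 0 ≤ offSq j l v := by
  by_cases hl : l = 0
  · simp [hl, offSq, ev]
  rw [offSq_eq hj hl]
  have := (gJ_pos j hl).le
  have := (sq_nonneg ‖perp j l v‖).trans (sq_norm_le_gJ j (perp j l v))
  positivity

theorem gJ_self_le {j : M4} {B : ℝ} (hB : ∀ i k, |j i k| ≤ B) (v : Pt) :
    gJ j v v ≤ (4 + 64 * B * B) * ‖v‖ ^ 2 := by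
  have ha := (abs_le.1 (abs_dot_le v v)).2
  have hb := (abs_le.1 (abs_dot_le (j *ᵥ v) (j *ᵥ v))).2
  have hc := mul_self_le_mul_self (norm_nonneg _) (norm_mulVec_le hB v)
  unfold gJ; nlinarith

/-- Lines of two bounded complex structures: the squared angle up to the squared difference.
The orientation is that of the second structure. -/
theorem exists_lines_lower (B : ℝ) : ∃ c C : ℝ, 0 < c ∧ 0 ≤ C ∧ ∀ j j' : M4, j' * j' = -1 →
    (∀ i k, |j' i k| ≤ B) → ∀ d : ℝ, (∀ i k, |j i k - j' i k| ≤ d) → ∀ v l : Pt,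
    c * offSq j' l v - C * d ^ 2 * ‖l‖ ^ 2 * ‖v‖ ^ 2 ≤
      oSgn j' * wedge (lineForm j v) (lineForm j' l) := by
  obtain ⟨c, hc, hlow⟩ := exists_det4_lines_lower B
  set K : ℝ := (4 + 64 * B * B) ^ 2 / 4 with hKdef
  have hK : 0 < K := by rw [hKdef]; nlinarith [mul_self_nonneg B]
  set E : ℝ := 384 * |B| with hEdef
  refine ⟨c / 2 / K, E ^ 2 / c, by positivity, by positivity, fun j j' hj hB d hd v l => ?_⟩
  have hd0 : 0 ≤ d := (abs_nonneg _).trans (hd 0 0)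
  by_cases hl : l = 0
  · simp [hl, offSq, ev, wedge, lineForm]
  have heq : wedge (lineForm j v) (lineForm j' l) = det4 l (j' *ᵥ l) v (j' *ᵥ v) +
        det4 l (j' *ᵥ l) (perp j' l v) (j *ᵥ v - j' *ᵥ v) := by
    rw [← det4_perp hj, wedge_comm, lineForm_eq, lineForm_eq]
    change det4 l (j' *ᵥ l) v (j *ᵥ v) = _
    simp only [det4_expand, Pi.sub_apply]; ring
  set e := perp j' l v with he
  have h1 := hlow j' hj hB l v hl
  have hjd : ‖j *ᵥ v - j' *ᵥ v‖ ≤ 4 * d * ‖v‖ := by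
    rw [← sub_mulVec]; exact norm_mulVec_le (fun i k => hd i k) v
  have hjl : ‖j' *ᵥ l‖ ≤ 4 * |B| * ‖l‖ :=
    norm_mulVec_le (fun i k => (hB i k).trans (le_abs_self B)) l
  have h2 : |oSgn j' * det4 l (j' *ᵥ l) e (j *ᵥ v - j' *ᵥ v)| ≤
      E * (‖l‖ ^ 2 * ‖e‖ * (d * ‖v‖)) := by
    rw [abs_oSgn_mul]
    refine (abs_det4_le _ _ _ _).trans ?_
    calc 24 * ‖l‖ * ‖j' *ᵥ l‖ * ‖e‖ * ‖j *ᵥ v - j' *ᵥ v‖
        ≤ 24 * ‖l‖ * (4 * |B| * ‖l‖) * ‖e‖ * (4 * d * ‖v‖) := by gcongr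
      _ = _ := by rw [hEdef]; ring
  have hoff : c / 2 / K * offSq j' l v ≤ c / 2 * ‖l‖ ^ 2 * ‖e‖ ^ 2 := by
    have h3 : offSq j' l v ≤ K * (‖l‖ ^ 2 * ‖e‖ ^ 2) := by
      rw [offSq_eq hj hl, ← he, hKdef]
      have ha := gJ_self_le hB l
      have hb := gJ_self_le hB e
      have hpos : 0 ≤ gJ j' e e := (sq_nonneg ‖e‖).trans (sq_norm_le_gJ j' e)
      have hm := mul_le_mul ha hb hpos ((gJ_pos j' hl).le.trans ha)
      calc gJ j' l l * gJ j' e e / 4
          ≤ (4 + 64 * B * B) * ‖l‖ ^ 2 * ((4 + 64 * B * B) * ‖e‖ ^ 2) / 4 := by linarith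
        _ = _ := by ring
    rw [div_mul_eq_mul_div, div_le_iff₀ hK]
    have := mul_le_mul_of_nonneg_left h3 (by linarith : 0 ≤ c / 2)
    linarith
  have h3 : E * (‖l‖ ^ 2 * ‖e‖ * (d * ‖v‖)) ≤
      c / 2 * ‖l‖ ^ 2 * ‖e‖ ^ 2 + E ^ 2 / c * d ^ 2 * ‖l‖ ^ 2 * ‖v‖ ^ 2 := by
    have h4 : 0 ≤ (‖l‖ ^ 2 / (2 * c)) * (c * ‖e‖ - E * (d * ‖v‖)) ^ 2 := by
      positivity
    have h5 : (‖l‖ ^ 2 / (2 * c)) * (c * ‖e‖ - E * (d * ‖v‖)) ^ 2 =
        c / 2 * ‖l‖ ^ 2 * ‖e‖ ^ 2 - E * (‖l‖ ^ 2 * ‖e‖ * (d * ‖v‖)) +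
        E ^ 2 / c * d ^ 2 * ‖l‖ ^ 2 * ‖v‖ ^ 2 / 2 := by
      field_simp; ring
    have h6 : 0 ≤ E ^ 2 / c * d ^ 2 * ‖l‖ ^ 2 * ‖v‖ ^ 2 := by positivity
    linarith
  rw [heq, mul_add]
  have := (abs_le.1 h2).1
  linarith

/-- The anti-invariant part of a line of a nearby structure. -/
theorem exists_antiP_line_bound (B : ℝ) : ∃ C : ℝ, 0 ≤ C ∧ ∀ j j' : M4, j' * j' = -1 →
    (∀ i k, |j' i k| ≤ B) → ∀ d : ℝ,
    (∀ i k, |j i k - j' i k| ≤ d) → ∀ v : Pt,
    antiP j' (lineForm j' v) = 0 →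
    sq2 (antiP j' (lineForm j v)) ≤ C * d ^ 2 * ‖v‖ ^ 4 := by
  refine ⟨16 * (4 * (1 + 16 * B * B)) ^ 2, by positivity, fun j j' hj hB d hd v h0 => ?_⟩
  set L := lineForm j v - lineForm j' v with hL
  have hd0 : 0 ≤ d := (abs_nonneg _).trans (hd 0 0)
  have hLe : ∀ i k, |L i k| ≤ 8 * d * ‖v‖ ^ 2 := fun i k => by
    have he : L = dualBiv v (j *ᵥ v - j' *ᵥ v) := by
      rw [hL, lineForm_eq, lineForm_eq]
      ext a b; fin_cases a <;> fin_cases b <;> simp [dualBiv] <;> ring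
    rw [he]
    refine (abs_dualBiv_le _ _ i k).trans ?_
    have : ‖j *ᵥ v - j' *ᵥ v‖ ≤ 4 * d * ‖v‖ := by
      rw [← sub_mulVec]; exact norm_mulVec_le (fun i k => hd i k) v
    calc 2 * ‖v‖ * ‖j *ᵥ v - j' *ᵥ v‖ ≤ 2 * ‖v‖ * (4 * d * ‖v‖) := by gcongr
      _ = _ := by ring
  have hlin : antiP j' (lineForm j v) = antiP j' L := by
    rw [hL]
    have : antiP j' (lineForm j v - lineForm j' v) =
        antiP j' (lineForm j v) - antiP j' (lineForm j' v) := by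
      simp only [antiP, Matrix.mul_sub, Matrix.sub_mul, ← smul_sub]; congr 1; abel
    rw [this, h0, sub_zero]
  rw [hlin]
  have he : ∀ i k, |antiP j' L i k| ≤ 4 * (1 + 16 * B * B) * d * ‖v‖ ^ 2 := fun i k => by
    have hB0 : 0 ≤ B := (abs_nonneg _).trans (hB 0 0)
    have h1 : ∀ a b, |(j'ᵀ * L) a b| ≤ 4 * (B * (8 * d * ‖v‖ ^ 2)) := fun a b => by
      rw [Matrix.mul_apply]
      refine (Finset.abs_sum_le_sum_abs _ _).trans ?_
      have h : ∀ r, |j'ᵀ a r * L r b| ≤ B * (8 * d * ‖v‖ ^ 2) := fun r => by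
        rw [abs_mul]; exact mul_le_mul (hB r a) (hLe r b) (abs_nonneg _) hB0
      rw [Fin.sum_univ_four]; linarith [h 0, h 1, h 2, h 3]
    have h2 : |(j'ᵀ * L * j') i k| ≤ 4 * (4 * (B * (8 * d * ‖v‖ ^ 2)) * B) := by
      rw [Matrix.mul_apply]
      refine (Finset.abs_sum_le_sum_abs _ _).trans ?_
      have h : ∀ r, |(j'ᵀ * L) i r * j' r k| ≤ 4 * (B * (8 * d * ‖v‖ ^ 2)) * B := fun r => by
        rw [abs_mul]
        exact mul_le_mul (h1 i r) (hB r k) (abs_nonneg _) ((abs_nonneg _).trans (h1 i r))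
      rw [Fin.sum_univ_four]; linarith [h 0, h 1, h 2, h 3]
    simp only [antiP, Matrix.smul_apply, Matrix.sub_apply, smul_eq_mul]
    have h1' := abs_le.1 (hLe i k); have h2' := abs_le.1 h2
    rw [abs_le]; constructor <;> linarith
  have hsq : ∀ i k, antiP j' L i k ^ 2 ≤ (4 * (1 + 16 * B * B) * d * ‖v‖ ^ 2) ^ 2 := fun i k =>
    sq_le_sq.2 ((he i k).trans (le_abs_self _))
  refine (Finset.sum_le_sum fun i _ => Finset.sum_le_sum fun k _ => hsq i k).trans (le_of_eq ?_)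
  simp; ring

end Vale.Agent.P204.Torus
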